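import Crest.Agent.R32.Count4

set_option autoImplicit false

namespace Crest.Agent.R32

open Finset

theorem abstract_main {A : Type} [Fintype A] [Nonempty A] {P Q : ℕ} [Fact P.Prime] [Fact Q.Prime]
    {E K Zm n L : ℕ} (hE1 : 1 ≤ E) (hE : E ≤ Q) (hPQ : Q < P) (hK : 2 ≤ K) (hZ : 2 * Zm ≤ Q)
    (X Y Z : A → ℤ) (hz1 : ∀ a, 1 ≤ Z a) (hz2 : ∀ a, Z a ≤ Zm)
    (hsep : ∀ a b c : A × Fin E × Fin E, a.1 ≠ b.1 → a.1 ≠ c.1 → b.1 ≠ c.1 → ∀ D : ℤ,
      (D : ZMod Q) = d3 (red Q (cv X Y Z a)) (red Q (cv X Y Z b)) (red Q (cv X Y Z c)) →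
        (Q : ℤ) ≤ K * |D|)
    (h1 : Zm ^ 2 * Fintype.card A ≤ E) (h2 : Q * Zm ^ 4 * Fintype.card A ≤ E ^ 4)
    (hL : Nat.log 2 (2 * (2 * P * Q) * (2 * P * Q)) + 1 ≤ L)
    (hn1 : 8 * n ≤ (P - 1) * P)
    (hn2 : 80000000000000 * L * n ^ 2 ≤ Fintype.card A * Q ^ 2 * P ^ 3) :
    ∃ g : Fin n → V ℤ, (∀ i, 0 ≤ g i 0 ∧ g i 0 < P * Q ∧ 0 ≤ g i 1 ∧ g i 1 < P * Q ∧
        P * Q ≤ g i 2 ∧ g i 2 < 2 * P * Q) ∧
      ∀ i j k, i ≠ j → i ≠ k → j ≠ k → (Q : ℤ) ≤ K * |d3 (g i) (g j) (g k)| := by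
  classical
  have hP : P.Prime := Fact.out
  have hQ : Q.Prime := Fact.out
  have hQ2 := hQ.two_le
  have hP2 : P ≠ 2 := by omega
  obtain ⟨ε, hε⟩ := FiniteField.exists_nonsquare (F := ZMod P) (by rwa [ZMod.ringChar_zmod_n])
  have h2P : (2 : ZMod P) ≠ 0 := by
    intro e
    have e' : ((2 : ℤ) : ZMod P) = ((0 : ℤ) : ZMod P) := by simpa using e
    have := eq_of_cast_eq e' (by simp; omega)
    omega
  have hZp : ∀ a : A × Fin E × Fin E, ((cv X Y Z a 2 : ℤ) : ZMod P) ≠ 0 := by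
    intro a e
    have e' : ((Z a.1 : ℤ) : ZMod P) = ((0 : ℤ) : ZMod P) := by simpa using e
    have h1 := hz1 a.1
    have h2 := hz2 a.1
    have := eq_of_cast_eq e' (by rw [sub_zero, abs_lt]; omega)
    omega
  choose lf hlf using fun u v => exists_lift (P := P) (Q := Q) hPQ.ne' u v
  set w : Mat Q × Mat P → (A × Fin E × Fin E) × Xp P → V ℤ := fun ω s =>
    lf (ω.1.mulVec (red Q (cv X Y Z s.1))) (ω.2.mulVec (vz ε (cv X Y Z s.1 2) s.2)) with hw
  have hbox : ∀ ω s, 0 ≤ w ω s 0 ∧ w ω s 0 < P * Q ∧ 0 ≤ w ω s 1 ∧ w ω s 1 < P * Q ∧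
        P * Q ≤ w ω s 2 ∧ w ω s 2 < 2 * P * Q := fun ω s => (hlf _ _).1
  have s1 := sum_bad_le hε h2P K (2 * P * Q) (cv X Y Z) hZp w (by
    intro ω s
    obtain ⟨b1, b2, b3, b4, b5, b6⟩ := hbox ω s
    have : (0 : ℤ) ≤ P * Q := by positivity
    rw [nrm_le_iff]
    intro i
    push_cast
    fin_cases i
    · show |w ω s 0| ≤ _
      rw [abs_le]; constructor <;> linarith
    · show |w ω s 1| ≤ _
      rw [abs_le]; constructor <;> linarith
    · show |w ω s 2| ≤ _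
      rw [abs_le]; constructor <;> linarith) (fun ω s => (hlf _ _).2.1) (fun ω s => (hlf _ _).2.2)
  have s2 := sum_MQ_le (P := P) hK hZ hE X Y Z hz1 hz2 hsep h1 h2
  have hL' : ((Nat.log 2 (2 * (2 * P * Q) * (2 * P * Q)) : ℕ) : ℝ) + 1 ≤ L := by exact_mod_cast hL
  set r : ℝ := ((Fintype.card A : ℕ) : ℝ) with hr
  have hr0 : 0 < r := by rw [hr]; exact_mod_cast Fintype.card_pos
  have hP0 : (0 : ℝ) < P := by exact_mod_cast hP.pos
  have hQ0 : (0 : ℝ) < Q := by exact_mod_cast hQ.pos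
  have hE0 : (0 : ℝ) < E := by exact_mod_cast hE1
  have hX : Fintype.card (Xp P) = (P - 1) * P := by
    rw [Fintype.card_prod, ZMod.card_units, ZMod.card]
  set x : ℝ := (((P - 1) * P : ℕ) : ℝ) with hx
  have hx1 : (P : ℝ) ^ 2 ≤ 2 * x := by
    have : P ^ 2 ≤ 2 * ((P - 1) * P) := by
      have : P ≤ 2 * (P - 1) := by omega
      nlinarith
    rw [hx]; exact_mod_cast this
  have hx0 : 0 < x := by nlinarith [pow_pos hP0 2]
  have hS : (Fintype.card ((A × Fin E × Fin E) × Xp P) : ℝ) = r * E ^ 2 * x := by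
    rw [Fintype.card_prod, hX]
    simp only [Fintype.card_prod, Fintype.card_fin]
    rw [hr, hx]
    push_cast
    ring
  set β : ℝ := 5000000000000 * L / (r * Q ^ 2 * P ^ 3) with hβ
  have hβ0 : 0 ≤ β := by positivity
  have hOm := card_Om_ge (P := P) (Q := Q)
  have hne : (Om P Q).Nonempty := by
    rw [← card_pos]
    have : (0 : ℝ) < (Om P Q).card := by
      have : (0 : ℝ) < (Q : ℝ) ^ 8 * (P : ℝ) ^ 9 := by positivity
      linarith
    exact_mod_cast this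
  have hex : ∃ ω ∈ Om P Q, ((Bad3 (Q := Q) K (w ω)).card : ℝ) ≤ β * (r * E ^ 2 * x) ^ 3 := by
    apply exists_le_of_sum_le hne
    rw [sum_const, nsmul_eq_mul]
    have s1' : ∑ ω ∈ Om P Q, ((Bad3 (Q := Q) K (w ω)).card : ℝ) ≤ 2 * (P : ℝ) ^ 6 *
      ∑ τ : (A × Fin E × Fin E) × (A × Fin E × Fin E) × (A × Fin E × Fin E),
      ((MQ Q (2 * P * Q) K (cv X Y Z τ.1) (cv X Y Z τ.2.1) (cv X Y Z τ.2.2)).card : ℝ) := by
      exact_mod_cast s1
    calc _ ≤ _ := s1'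
      _ ≤ 2 * (P : ℝ) ^ 6 * (24000000 * ((2 * P * Q : ℕ) : ℝ) ^ 6 * L *
          (6 * (r ^ 2 * (E : ℝ) ^ 6))) := by
          gcongr
          refine s2.trans ?_
          gcongr
      _ = 18432000000 * ((P : ℝ) ^ 12 * Q ^ 6 * L * r ^ 2 * E ^ 6) := by push_cast; ring
      _ ≤ 19531250000 * ((P : ℝ) ^ 12 * Q ^ 6 * L * r ^ 2 * E ^ 6) := by gcongr; norm_num
      _ = ((Q : ℝ) ^ 8 * P ^ 9 / 32) * (β * (r * E ^ 2 * ((P : ℝ) ^ 2 / 2)) ^ 3) := by
          rw [hβ]; field_simp; ring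
      _ ≤ _ := by
          gcongr
          · linarith
          · linarith
  obtain ⟨ω, -, hω⟩ := hex
  have : Nonempty (Fin E) := ⟨⟨0, hE1⟩⟩
  obtain ⟨g, g2, g3⟩ := deletion (S := (A × Fin E × Fin E) × Xp P)
    (univ.filter fun t => t.1.2 = t.2.2) (Bad3 (Q := Q) K (w ω)) n (1 / x) β
    (by positivity) hβ0 (by
      have : (univ.filter fun t : ((A × Fin E × Fin E) × Xp P) × ((A × Fin E × Fin E) × Xp P) =>
          t.1.2 = t.2.2).card ≤
          (univ : Finset (((A × Fin E × Fin E) × Xp P) × (A × Fin E × Fin E))).card := by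
        apply card_le_card_of_injOn (fun t => (t.1, t.2.1))
        · intro _ _; exact mem_coe.mpr (mem_univ _)
        · rintro ⟨a, b, c⟩ h ⟨a', b', c'⟩ h' e
          replace h := (mem_filter.mp (mem_coe.mp h)).2
          replace h' := (mem_filter.mp (mem_coe.mp h')).2
          simp only [Prod.mk.injEq] at e h h' ⊢
          obtain ⟨rfl, rfl⟩ := e
          exact ⟨rfl, rfl, h.symm.trans h'⟩
      rw [card_univ, Fintype.card_prod] at this
      have e : (Fintype.card (A × Fin E × Fin E) : ℝ) = r * E ^ 2 := by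
        simp only [Fintype.card_prod, Fintype.card_fin]
        rw [hr]; push_cast; ring
      calc _ ≤ (Fintype.card ((A × Fin E × Fin E) × Xp P) : ℝ) *
            (Fintype.card (A × Fin E × Fin E) : ℝ) := by exact_mod_cast this
        _ = _ := by rw [hS, e]; field_simp)
    (by rw [hS]; exact hω) (by
      have a1 : 8 * (n : ℝ) ≤ x := by rw [hx]; exact_mod_cast hn1
      have a2 : 80000000000000 * (L : ℝ) * (n : ℝ) ^ 2 ≤ r * Q ^ 2 * P ^ 3 := by
        rw [hr]; exact_mod_cast hn2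
      have b1 : 4 * (n : ℝ) ^ 2 * (1 / x) ≤ n / 2 := by
        rw [mul_one_div, div_le_iff₀ hx0]
        nlinarith [(Nat.cast_nonneg n : (0 : ℝ) ≤ n)]
      have b2 : 8 * (n : ℝ) ^ 3 * β ≤ n / 2 := by
        rw [hβ, ← mul_div_assoc, div_le_iff₀ (by positivity)]
        nlinarith [(Nat.cast_nonneg n : (0 : ℝ) ≤ n)]
      linarith)
  refine ⟨fun i => w ω (g i), fun i => hbox _ _, ?_⟩
  intro i j k hij hik hjk
  have := g3 i j k hij hik hjk
  rw [mem_Bad3] at this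
  by_contra hc
  apply this
  refine ⟨⟨?_, ?_, ?_⟩, not_le.mp hc⟩
  · intro e; exact g2 i j hij (mem_filter.mpr ⟨mem_univ _, e⟩)
  · intro e; exact g2 i k hik (mem_filter.mpr ⟨mem_univ _, e⟩)
  · intro e; exact g2 j k hjk (mem_filter.mpr ⟨mem_univ _, e⟩)

/-- from integer vectors to points of the unit square -/
theorem points_of_vectors {n : ℕ} (hn : 3 ≤ n) {H : ℤ} {δ : ℝ} (hδ : 0 < δ) (g : Fin n → V ℤ)
    (hg : ∀ i, 0 ≤ g i 0 ∧ g i 0 < H ∧ 0 ≤ g i 1 ∧ g i 1 < H ∧ H ≤ g i 2 ∧ g i 2 < 2 * H)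
    (hd : ∀ i j k, i ≠ j → i ≠ k → j ≠ k →
      δ * (16 * (H : ℝ) ^ 3) ≤ |((d3 (g i) (g j) (g k) : ℤ) : ℝ)|) :
    ∃ P : Finset (ℝ × ℝ), P.card = n ∧
        (∀ p ∈ P, 0 ≤ p.1 ∧ p.1 ≤ 1 ∧ 0 ≤ p.2 ∧ p.2 ≤ 1) ∧
        ∀ p ∈ P, ∀ q ∈ P, ∀ r ∈ P, p ≠ q → p ≠ r → q ≠ r →
          δ ≤ |(q.1 - p.1) * (r.2 - p.2) - (q.2 - p.2) * (r.1 - p.1)| / 2 := by
  classical
  set f : Fin n → ℝ × ℝ := fun i => ((g i 0 : ℝ) / g i 2, (g i 1 : ℝ) / g i 2) with hf
  have hg' : ∀ i, (0 : ℝ) ≤ g i 0 ∧ (g i 0 : ℝ) < H ∧ (0 : ℝ) ≤ g i 1 ∧ (g i 1 : ℝ) < H ∧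
      (H : ℝ) ≤ g i 2 ∧ (g i 2 : ℝ) < 2 * H := fun i => by exact_mod_cast hg i
  have hz : ∀ i, (0 : ℝ) < g i 2 := fun i => by
    obtain ⟨a, b, -, -, c, -⟩ := hg' i
    linarith
  have key : ∀ i j k, i ≠ j → i ≠ k → j ≠ k → δ ≤
      |((f j).1 - (f i).1) * ((f k).2 - (f i).2) - ((f j).2 - (f i).2) * ((f k).1 - (f i).1)|
        / 2 := by
    intro i j k hij hik hjk
    have e : ((f j).1 - (f i).1) * ((f k).2 - (f i).2) - ((f j).2 - (f i).2) * ((f k).1 - (f i).1)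
        = ((d3 (g i) (g j) (g k) : ℤ) : ℝ) / ((g i 2 : ℝ) * g j 2 * g k 2) := by
      have := hz i
      have := hz j
      have := hz k
      simp only [hf, d3]
      push_cast
      field_simp
      ring
    have hp : (0 : ℝ) < (g i 2 : ℝ) * g j 2 * g k 2 := by
      have := hz i
      have := hz j
      have := hz k
      positivity
    rw [e, abs_div, abs_of_pos hp, div_div, le_div_iff₀ (by positivity)]
    refine le_trans ?_ (hd i j k hij hik hjk)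
    apply mul_le_mul_of_nonneg_left _ hδ.le
    have a := (hg' i).2.2.2.2.2.le
    have b := (hg' j).2.2.2.2.2.le
    have c := (hg' k).2.2.2.2.2.le
    have := hz i
    have := hz j
    have := hz k
    calc (g i 2 : ℝ) * g j 2 * g k 2 * 2 ≤ (2 * H) * (2 * H) * (2 * H) * 2 := by
          gcongr
          · nlinarith
          · linarith
      _ = _ := by ring
  have hinj : Function.Injective f := by
    intro i j e
    by_contra hij
    have : ∃ k, k ∉ ({i, j} : Finset (Fin n)) := by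
      by_contra hc
      push Not at hc
      have h1 : (univ : Finset (Fin n)) ⊆ {i, j} := fun k _ => hc k
      have h2 := (card_le_card h1).trans card_le_two
      simp at h2
      omega
    obtain ⟨k, hk⟩ := this
    simp only [mem_insert, mem_singleton, not_or] at hk
    have := key i j k hij (Ne.symm hk.1) (Ne.symm hk.2)
    rw [e] at this
    simp at this
    linarith
  refine ⟨univ.image f, by rw [card_image_of_injective _ hinj]; simp, ?_, ?_⟩
  · intro p hp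
    obtain ⟨i, -, rfl⟩ := mem_image.mp hp
    obtain ⟨a, b, c, d, e, -⟩ := hg' i
    have := hz i
    refine ⟨by positivity, ?_, by positivity, ?_⟩
    · show (g i 0 : ℝ) / g i 2 ≤ 1
      rw [div_le_one this]; linarith
    · show (g i 1 : ℝ) / g i 2 ≤ 1
      rw [div_le_one this]; linarith
  · intro p hp q hq r hr hpq hpr hqr
    obtain ⟨i, -, rfl⟩ := mem_image.mp hp
    obtain ⟨j, -, rfl⟩ := mem_image.mp hq
    obtain ⟨k, -, rfl⟩ := mem_image.mp hr
    exact key i j k (fun e => hpq (by rw [e])) (fun e => hpr (by rw [e])) (fun e => hqr (by rw [e]))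

end Crest.Agent.R32
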