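import Crest.Agent.R32.Count1

set_option autoImplicit false

namespace Crest.Agent.R32

open Finset

section rank
variable {A F : Type} [CommRing F]

/-- tensor rank at most `s` -/
def HasRank (s : ℕ) (φ : A → A → A → F) : Prop :=
  ∃ f g h : Fin s → A → F, ∀ a b c, φ a b c = ∑ i, f i a * g i b * h i c

lemma rank_fst (u : A → F) : HasRank 1 fun a _ _ => u a :=
  ⟨fun _ => u, fun _ _ => 1, fun _ _ => 1, by simp⟩

lemma rank_snd (u : A → F) : HasRank 1 fun _ b _ => u b :=
  ⟨fun _ _ => 1, fun _ => u, fun _ _ => 1, by simp⟩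

lemma rank_thd (u : A → F) : HasRank 1 fun _ _ c => u c :=
  ⟨fun _ _ => 1, fun _ _ => 1, fun _ => u, by simp⟩

lemma HasRank.sub_mul {s t : ℕ} {φ ψ : A → A → A → F} (h1 : HasRank s φ) (h2 : HasRank t ψ)
    (k : F) : HasRank (s + t) fun a b c => φ a b c - k * ψ a b c := by
  obtain ⟨f, g, h, e⟩ := h1
  obtain ⟨f', g', h', e'⟩ := h2
  refine ⟨Fin.append f fun i a => -k * f' i a, Fin.append g g', Fin.append h h', ?_⟩
  intro a b c
  rw [Fin.sum_univ_add]
  simp only [Fin.append_left, Fin.append_right]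
  rw [e, e', mul_sum, sub_eq_add_neg, ← sum_neg_distrib]
  congr 1
  exact sum_congr rfl fun i _ => by ring

lemma HasRank.mul {s t : ℕ} {φ ψ : A → A → A → F} (h1 : HasRank s φ) (h2 : HasRank t ψ) :
    HasRank (s * t) fun a b c => φ a b c * ψ a b c := by
  obtain ⟨f, g, h, e⟩ := h1
  obtain ⟨f', g', h', e'⟩ := h2
  refine ⟨fun i a => f (finProdFinEquiv.symm i).1 a * f' (finProdFinEquiv.symm i).2 a,
    fun i a => g (finProdFinEquiv.symm i).1 a * g' (finProdFinEquiv.symm i).2 a,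
    fun i a => h (finProdFinEquiv.symm i).1 a * h' (finProdFinEquiv.symm i).2 a, ?_⟩
  intro a b c
  rw [← Equiv.sum_comp finProdFinEquiv]
  simp only [Equiv.symm_apply_apply]
  rw [e, e', Fintype.sum_prod_type, sum_mul_sum]
  exact sum_congr rfl fun i _ => sum_congr rfl fun j _ => by ring

/-- a binary cubic form -/
def cub (β x y : F) : F := x * x * x - 1 * (x * y * y) - β * (y * y * y)

lemma HasRank.cub {s : ℕ} {φ ψ : A → A → A → F} (h1 : HasRank s φ) (h2 : HasRank s ψ) (β : F) :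
    HasRank (s * s * s + s * s * s + s * s * s) fun a b c => cub β (φ a b c) (ψ a b c) :=
  (((h1.mul h1).mul h1).sub_mul ((h1.mul h2).mul h2) 1).sub_mul ((h2.mul h2).mul h2) β

/-- an odd form in four variables -/
def frm (β : F) (u v : Fin 4 → F) : F :=
  cub β (cub β (u 0 - 1 * v 0) (u 1 - 1 * v 1)) (cub β (u 2 - 1 * v 2) (u 3 - 1 * v 3))

lemma frm_swap (β : F) (u v : Fin 4 → F) : frm β u v = -frm β v u := by
  simp only [frm, cub]; ring

lemma rank_frm {x y : A → A → A → Fin 4 → F} (hx : ∀ i, HasRank 1 fun a b c => x a b c i)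
    (hy : ∀ i, HasRank 1 fun a b c => y a b c i) (β : F) :
    HasRank 41472 fun a b c => frm β (x a b c) (y a b c) :=
  ((((hx 0).sub_mul (hy 0) 1).cub ((hx 1).sub_mul (hy 1) 1) β).cub
    (((hx 2).sub_mul (hy 2) 1).cub ((hx 3).sub_mul (hy 3) 1) β) β :)

lemma rank_psi (β : F) : HasRank (41472 * 41472 * 41472)
    fun a b c : Fin 4 → F => frm β a b * frm β b c * frm β c a := by
  have h1 := rank_frm (A := Fin 4 → F) (x := fun a _ _ => a) (y := fun _ b _ => b)
    (fun i => rank_fst fun a : Fin 4 → F => a i) (fun i => rank_snd fun a : Fin 4 → F => a i) β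
  have h2 := rank_frm (A := Fin 4 → F) (x := fun _ b _ => b) (y := fun _ _ c => c)
    (fun i => rank_snd fun a : Fin 4 → F => a i) (fun i => rank_thd fun a : Fin 4 → F => a i) β
  have h3 := rank_frm (A := Fin 4 → F) (x := fun _ _ c => c) (y := fun a _ _ => a)
    (fun i => rank_thd fun a : Fin 4 → F => a i) (fun i => rank_fst fun a : Fin 4 → F => a i) β
  exact (h1.mul h2).mul h3

end rank

lemma exists_rootless (F : Type) [Field F] [Finite F] :
    ∃ β : F, ∀ x y : F, cub β x y = 0 → x = 0 ∧ y = 0 := by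
  have : ¬Function.Surjective fun t : F => t * t * t - t := by
    rw [← Finite.injective_iff_surjective]
    intro h
    have : (0 : F) = 1 := h (by simp)
    exact zero_ne_one this
  simp only [Function.Surjective, not_forall, not_exists] at this
  obtain ⟨β, hβ⟩ := this
  refine ⟨β, fun x y h => ?_⟩
  have hy : y = 0 := by
    by_contra hy
    apply hβ (x / y)
    unfold cub at h
    field_simp
    linear_combination h
  refine ⟨?_, hy⟩
  rw [hy] at h
  simpa [cub] using h

theorem exists_tensor : ∃ s : ℕ, 1 ≤ s ∧ ∀ (p : ℕ) [Fact p.Prime], 3 < p →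
    ∃ f g h : Fin s → (Fin 4 → ZMod p) → ZMod p, ∀ a b c, a ≠ b → a ≠ c → b ≠ c →
      ∑ i, d3 ![f i a, f i b, f i c] ![g i a, g i b, g i c] ![h i a, h i b, h i c] ≠ 0 := by
  refine ⟨41472 * 41472 * 41472, by norm_num, fun p _ hp => ?_⟩
  obtain ⟨β, hβ⟩ := exists_rootless (ZMod p)
  have := rank_psi β
  generalize 41472 * 41472 * 41472 = s at this ⊢
  obtain ⟨f, g, h, e⟩ := this
  refine ⟨f, g, h, fun a b c hab hac hbc => ?_⟩
  have hne : ∀ u v : Fin 4 → ZMod p, u ≠ v → frm β u v ≠ 0 := by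
    intro u v huv hz
    obtain ⟨h1, h2⟩ := hβ _ _ hz
    obtain ⟨e0, e1⟩ := hβ _ _ h1
    obtain ⟨e2, e3⟩ := hβ _ _ h2
    apply huv
    funext i
    fin_cases i
    · show u 0 = v 0
      linear_combination e0
    · show u 1 = v 1
      linear_combination e1
    · show u 2 = v 2
      linear_combination e2
    · show u 3 = v 3
      linear_combination e3
  have h6 : (6 : ZMod p) ≠ 0 := by
    intro h
    have h' : ((2 * 3 : ℕ) : ZMod p) = 0 := by simpa using h
    rw [ZMod.natCast_eq_zero_iff] at h'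
    rcases (Nat.Prime.dvd_mul Fact.out).mp h' with h | h
    · have := Nat.le_of_dvd (by norm_num) h; omega
    · have := Nat.le_of_dvd (by norm_num) h; omega
  have key : ∑ i, d3 ![f i a, f i b, f i c] ![g i a, g i b, g i c] ![h i a, h i b, h i c] =
      6 * (frm β a b * frm β b c * frm β c a) := by
    have : ∑ i, d3 ![f i a, f i b, f i c] ![g i a, g i b, g i c] ![h i a, h i b, h i c] =
        ∑ i, (f i a * g i b * h i c + f i b * g i c * h i a + f i c * g i a * h i b
          - f i a * g i c * h i b - f i b * g i a * h i c - f i c * g i b * h i a) :=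
      sum_congr rfl fun i _ => by simp [d3]; ring
    rw [this]
    simp only [sum_add_distrib, sum_sub_distrib, ← e]
    rw [frm_swap β a c, frm_swap β c b, frm_swap β b a]
    ring
  rw [key]
  exact mul_ne_zero h6 (mul_ne_zero (mul_ne_zero (hne _ _ hab) (hne _ _ hbc)) (hne _ _ hac.symm))

lemma split_sum {ι : Type} [Fintype ι] (T : ι → ℤ) (e : ι → ℕ) (j : ℕ) {B M : ℤ} (hB : 1 ≤ B)
    (hT : ∀ t, |T t| ≤ M) :
    ∃ h err : ℤ, ∑ t, T t * B ^ e t =
        B ^ (j + 1) * h + (B ^ j * ∑ t, (if e t = j then T t else 0) + err) ∧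
      |∑ t, (if e t = j then T t else 0)| ≤ Fintype.card ι * M ∧
      B * |err| ≤ Fintype.card ι * (M * B ^ j) := by
  have hM : ∀ t : ι, 0 ≤ M := fun t => (abs_nonneg _).trans (hT t)
  refine ⟨∑ t, (if j < e t then T t * B ^ (e t - (j + 1)) else 0),
    ∑ t, (if e t < j then T t * B ^ e t else 0), ?_, ?_, ?_⟩
  · rw [mul_sum, mul_sum, ← sum_add_distrib, ← sum_add_distrib]
    apply sum_congr rfl
    intro t _
    rcases lt_trichotomy (e t) j with h | h | h
    · rw [if_neg (by omega), if_neg (by omega), if_pos h]; ring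
    · rw [if_neg (by omega), if_pos h, if_neg (by omega), h]; ring
    · rw [if_pos h, if_neg (by omega), if_neg (by omega)]
      obtain ⟨d, hd⟩ := Nat.exists_eq_add_of_lt h
      rw [hd, show j + d + 1 - (j + 1) = d by omega]
      ring
  · refine (abs_sum_le_sum_abs _ _).trans ?_
    refine (sum_le_card_nsmul _ _ M ?_).trans (by simp)
    intro t _
    split_ifs
    · exact hT t
    · simpa using hM t
  · refine (mul_le_mul_of_nonneg_left (abs_sum_le_sum_abs _ _) (by linarith)).trans ?_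
    rw [mul_sum]
    refine (sum_le_card_nsmul _ _ (M * B ^ j) ?_).trans (by simp)
    intro t _
    have := hM t
    split_ifs with h
    · rw [abs_mul, abs_of_nonneg (by positivity : 0 ≤ B ^ e t)]
      calc B * (|T t| * B ^ e t) = |T t| * B ^ (e t + 1) := by ring
        _ ≤ M * B ^ j := mul_le_mul (hT t) (pow_le_pow_right₀ hB h) (by positivity) this
    · simp only [abs_zero, mul_zero]; positivity

lemma expo_iff {s : ℕ} (i i' i'' : Fin s) :
    (i : ℕ) + s * i' + (s + 1) * (s - i'') = (s + 1) * s ↔ i = i' ∧ i' = i'' := by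
  obtain ⟨d, hd⟩ := Nat.exists_eq_add_of_lt i''.2
  have e : s - i'' = d + 1 := by omega
  have e2 : (s + 1) * s = (s + 1) * (d + 1) + (i'' + s * i'') := by
    conv_lhs => rw [show (s + 1) * s = (s + 1) * (i'' + d + 1) by rw [← hd]]
    ring
  rw [e, e2]
  constructor
  · intro h
    have h1 : (i : ℕ) + s * i' = i'' + s * i'' := by omega
    have h2 := congrArg (· % s) h1
    simp only [Nat.add_mul_mod_self_left, Nat.mod_eq_of_lt i.2, Nat.mod_eq_of_lt i''.2] at h2
    have h3 : s * i' = s * i'' := by omega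
    have h4 : (i' : ℕ) = i'' := Nat.eq_of_mul_eq_mul_left (by omega) h3
    exact ⟨Fin.ext (h2.trans h4.symm), Fin.ext h4⟩
  · rintro ⟨rfl, rfl⟩
    ring

/-- the class system -/
theorem exists_classes : ∃ s : ℕ, 1 ≤ s ∧ ∀ (p : ℕ) [Fact p.Prime], 3 < p →
    ∀ B q : ℕ, B = 60 * s ^ 3 * p ^ 3 → q = B ^ ((s + 1) * s + 1) →
    ∃ X Y Z : (Fin 4 → ZMod p) → ℤ, (∀ a, |X a| ≤ q) ∧ (∀ a, |Y a| ≤ q) ∧
      (∀ a, 1 ≤ Z a) ∧ (∀ a, Z a ≤ q) ∧ ∀ a b c, a ≠ b → a ≠ c → b ≠ c →
      ∃ h ρ : ℤ, d3 ![X a, X b, X c] ![Y a, Y b, Y c] ![Z a, Z b, Z c] = q * h + ρ ∧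
        (q : ℤ) ≤ 2 * B * |ρ| ∧ 2 * |ρ| ≤ q := by
  obtain ⟨s, hs, H⟩ := exists_tensor
  refine ⟨s, hs, fun p _ hp B q hB hq => ?_⟩
  obtain ⟨f, g, h, hne⟩ := H p hp
  obtain ⟨rep, r1, r2, r3⟩ : ∃ rep : ZMod p → ℤ, (∀ x, 1 ≤ rep x) ∧ (∀ x, rep x ≤ p) ∧
      ∀ x, ((rep x : ℤ) : ZMod p) = x := by
    refine ⟨fun x => ((x - 1).val : ℤ) + 1, fun x => ?_, fun x => ?_, fun x => ?_⟩
    · have : (0 : ℤ) ≤ ((x - 1).val : ℤ) := by positivity
      linarith
    · have := ZMod.val_lt (x - 1)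
      show ((x - 1).val : ℤ) + 1 ≤ p
      omega
    · simp
  set j := (s + 1) * s with hj
  have hsp : s * p ≤ B := by
    rw [hB]
    calc s * p = 1 * s ^ 1 * p ^ 1 := by ring
      _ ≤ 60 * s ^ 3 * p ^ 3 := by gcongr <;> omega
  have hB1 : (1 : ℤ) ≤ B := by
    have : 1 ≤ s * p := Nat.mul_pos hs (by omega)
    exact_mod_cast this.trans hsp
  have hq' : (q : ℤ) = (B : ℤ) ^ (j + 1) := by rw [hq]; push_cast; rfl
  have bound : ∀ (u : Fin s → ZMod p) (e : Fin s → ℕ), (∀ i, e i ≤ j) →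
      1 ≤ ∑ i, rep (u i) * (B : ℤ) ^ e i ∧ ∑ i, rep (u i) * (B : ℤ) ^ e i ≤ q := by
    intro u e he
    constructor
    · have : ∀ i ∈ (univ : Finset (Fin s)), (1 : ℤ) ≤ rep (u i) * (B : ℤ) ^ e i := fun i _ =>
        one_le_mul_of_one_le_of_one_le (r1 _) (one_le_pow₀ hB1)
      have h2 := card_nsmul_le_sum _ _ _ this
      simp only [card_univ, Fintype.card_fin, nsmul_eq_mul, mul_one] at h2
      have : (1 : ℤ) ≤ s := by exact_mod_cast hs
      linarith
    · have : ∀ i ∈ (univ : Finset (Fin s)), rep (u i) * (B : ℤ) ^ e i ≤ p * (B : ℤ) ^ j :=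
        fun i _ => mul_le_mul (r2 _) (pow_le_pow_right₀ hB1 (he i)) (by positivity)
          (by positivity)
      have h2 := sum_le_card_nsmul _ _ _ this
      simp only [card_univ, Fintype.card_fin, nsmul_eq_mul] at h2
      refine h2.trans ?_
      rw [hq', pow_succ', ← mul_assoc]
      have : (s : ℤ) * p ≤ B := by exact_mod_cast hsp
      gcongr
  have e1 : ∀ i : Fin s, (i : ℕ) ≤ j := fun i => by have := i.2; rw [hj]; nlinarith
  have e2 : ∀ i : Fin s, s * (i : ℕ) ≤ j := fun i => by have := i.2; rw [hj]; nlinarith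
  have e3 : ∀ i : Fin s, (s + 1) * (s - i) ≤ j := fun i => Nat.mul_le_mul_left _ (Nat.sub_le _ _)
  refine ⟨fun a => ∑ i, rep (f i a) * (B : ℤ) ^ (i : ℕ),
    fun a => ∑ i, rep (g i a) * (B : ℤ) ^ (s * i),
    fun a => ∑ i, rep (h i a) * (B : ℤ) ^ ((s + 1) * (s - i)), fun a => ?_, fun a => ?_,
    fun a => (bound _ _ e3).1, fun a => (bound _ _ e3).2, fun a b c hab hac hbc => ?_⟩
  · have := bound (fun i => f i a) _ e1
    rw [abs_le]; constructor <;> linarith [this.1, this.2]
  · have := bound (fun i => g i a) _ e2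
    rw [abs_le]; constructor <;> linarith [this.1, this.2]
  have rabs : ∀ x y z : ZMod p, ∀ i, |(![rep x, rep y, rep z] : V ℤ) i| ≤ p := by
    intro x y z i
    have : ∀ x, |rep x| ≤ p := fun x => by
      rw [abs_le]; constructor <;> linarith [r1 x, r2 x]
    fin_cases i
    · exact this x
    · exact this y
    · exact this z
  obtain ⟨k, err, s1, s2, s3⟩ := split_sum (ι := Fin s × Fin s × Fin s)
    (fun t => d3 ![rep (f t.1 a), rep (f t.1 b), rep (f t.1 c)]
      ![rep (g t.2.1 a), rep (g t.2.1 b), rep (g t.2.1 c)]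
      ![rep (h t.2.2 a), rep (h t.2.2 b), rep (h t.2.2 c)])
    (fun t => (t.1 : ℕ) + s * t.2.1 + (s + 1) * (s - t.2.2)) j hB1
    (fun t => abs_d3_le (rabs _ _ _) (rabs _ _ _) (rabs _ _ _))
  have hcard : ((Fintype.card (Fin s × Fin s × Fin s) : ℕ) : ℤ) * (6 * p * p * p) * 10 = B := by
    simp only [Fintype.card_prod, Fintype.card_fin]
    rw [hB]; push_cast; ring
  have hω : (∑ t : Fin s × Fin s × Fin s,
      (if (t.1 : ℕ) + s * t.2.1 + (s + 1) * (s - t.2.2) = j then
      d3 ![rep (f t.1 a), rep (f t.1 b), rep (f t.1 c)]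
      ![rep (g t.2.1 a), rep (g t.2.1 b), rep (g t.2.1 c)]
      ![rep (h t.2.2 a), rep (h t.2.2 b), rep (h t.2.2 c)] else 0)) ≠ 0 := by
    intro hz
    apply hne a b c hab hac hbc
    simp only [hj, expo_iff, Fintype.sum_prod_type, ite_and, sum_ite_irrel, sum_ite_eq,
      mem_univ, if_true, sum_const_zero] at hz
    have := congrArg (Int.cast : ℤ → ZMod p) hz
    push_cast at this
    rw [← this]
    apply sum_congr rfl
    intro i _
    simp [d3, r3]
  generalize (∑ t : Fin s × Fin s × Fin s,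
      (if (t.1 : ℕ) + s * t.2.1 + (s + 1) * (s - t.2.2) = j then
      d3 ![rep (f t.1 a), rep (f t.1 b), rep (f t.1 c)]
      ![rep (g t.2.1 a), rep (g t.2.1 b), rep (g t.2.1 c)]
      ![rep (h t.2.2 a), rep (h t.2.2 b), rep (h t.2.2 c)] else 0)) = ω at *
  refine ⟨k, (B : ℤ) ^ j * ω + err, ?_, ?_, ?_⟩
  · rw [hq', ← s1]
    have prod : ∀ u v w, (∑ i, rep (f i u) * (B : ℤ) ^ (i : ℕ)) *
        (∑ i, rep (g i v) * (B : ℤ) ^ (s * i)) *
        (∑ i, rep (h i w) * (B : ℤ) ^ ((s + 1) * (s - i))) =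
        ∑ t : Fin s × Fin s × Fin s, rep (f t.1 u) * rep (g t.2.1 v) * rep (h t.2.2 w) *
          (B : ℤ) ^ ((t.1 : ℕ) + s * t.2.1 + (s + 1) * (s - t.2.2)) := by
      intro u v w
      rw [sum_mul_sum, Fintype.sum_prod_type, sum_mul]
      apply sum_congr rfl
      intro i _
      rw [sum_mul_sum, Fintype.sum_prod_type]
      apply sum_congr rfl
      intro i' _
      apply sum_congr rfl
      intro i'' _
      rw [pow_add, pow_add]
      ring
    have six : ∀ x y z : V ℤ, d3 x y z = x 0 * y 1 * z 2 + x 1 * y 2 * z 0 + x 2 * y 0 * z 1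
        - x 0 * y 2 * z 1 - x 1 * y 0 * z 2 - x 2 * y 1 * z 0 := by
      intro x y z; simp only [d3]; ring
    simp only [six, Matrix.cons_val_zero, Matrix.cons_val_one, Matrix.cons_val, prod]
    simp only [← sum_add_distrib, ← sum_sub_distrib]
    exact sum_congr rfl fun t _ => by ring
  · have t1 : 10 * |err| ≤ (B : ℤ) ^ j := by
      apply le_of_mul_le_mul_left _ (by linarith : (0 : ℤ) < B)
      calc (B : ℤ) * (10 * |err|) = 10 * (B * |err|) := by ring
        _ ≤ 10 * (_ * (6 * p * p * p * (B : ℤ) ^ j)) := by gcongr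
        _ = _ := by rw [← hcard]; ring
    have t2 : (B : ℤ) ^ j ≤ |(B : ℤ) ^ j * ω| := by
      rw [abs_mul, abs_of_nonneg (by positivity)]
      exact le_mul_of_one_le_right (by positivity) (Int.one_le_abs hω)
    have t3 : |(B : ℤ) ^ j * ω| ≤ |(B : ℤ) ^ j * ω + err| + |err| := by
      have := abs_sub ((B : ℤ) ^ j * ω + err) err
      simpa using this
    have t4 : (B : ℤ) ^ j ≤ 2 * |(B : ℤ) ^ j * ω + err| := by
      linarith [abs_nonneg err]
    rw [hq', pow_succ']
    nlinarith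
  · have t1 : 10 * |err| ≤ (B : ℤ) ^ j := by
      apply le_of_mul_le_mul_left _ (by linarith : (0 : ℤ) < B)
      calc (B : ℤ) * (10 * |err|) = 10 * (B * |err|) := by ring
        _ ≤ 10 * (_ * (6 * p * p * p * (B : ℤ) ^ j)) := by gcongr
        _ = _ := by rw [← hcard]; ring
    have t2 : 10 * |ω| ≤ B := by linarith
    have t3 := abs_add_le ((B : ℤ) ^ j * ω) err
    have t4 : (0 : ℤ) < (B : ℤ) ^ j := by positivity
    rw [abs_mul, abs_of_pos t4] at t3
    rw [hq', pow_succ]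
    nlinarith

end Crest.Agent.R32
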