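import Crest.Agent.R32.ModQ

set_option autoImplicit false

namespace Crest.Agent.R32

open Finset

/-- reduction modulo `m` -/
def red (m : ℕ) (w : V ℤ) : V (ZMod m) := fun i => (w i : ZMod m)

lemma red_d3 (m : ℕ) (a b c : V ℤ) :
    ((d3 a b c : ℤ) : ZMod m) = d3 (red m a) (red m b) (red m c) := by
  simp only [d3, red]; push_cast; ring

lemma red_cr (m : ℕ) (a b : V ℤ) : red m (cr a b) = cr (red m a) (red m b) := by
  rw [vext]
  simp only [red, cr_0, cr_1, cr_2]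
  push_cast
  exact ⟨rfl, rfl, rfl⟩

lemma red_zero (m : ℕ) : red m 0 = 0 := by
  funext i; simp [red]

/-- no short relation whose weights also kill the third coordinates -/
def Adm (W : V ℤ × V ℤ × V ℤ) (z₁ z₂ z₃ : ℤ) : Prop :=
  ∀ y : V ℤ, (∀ i, y 0 * W.1 i + y 1 * W.2.1 i + y 2 * W.2.2 i = 0) →
    y 0 * z₁ + y 1 * z₂ + y 2 * z₃ = 0 → y = 0

variable (Q : ℕ) [Fact Q.Prime]

open Classical in
/-- integer triples lying over a unimodular image of `c₁, c₂, c₃` -/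
noncomputable def WS (R K : ℕ) (c₁ c₂ c₃ : V ℤ) : Finset (V ℤ × V ℤ × V ℤ) :=
  (box R ×ˢ box R ×ˢ box R).filter fun W => K * |d3 W.1 W.2.1 W.2.2| < Q ∧
    Adm W (c₁ 2) (c₂ 2) (c₃ 2) ∧ ∃ U, U ∈ UQ (red Q c₁) (red Q c₂) (red Q c₃)
      (red Q W.1) (red Q W.2.1) (red Q W.2.2)

variable {Q}

lemma mem_WS {R K : ℕ} {c₁ c₂ c₃ : V ℤ} {W : V ℤ × V ℤ × V ℤ} : W ∈ WS Q R K c₁ c₂ c₃ ↔
    (nrm W.1 ≤ R ∧ nrm W.2.1 ≤ R ∧ nrm W.2.2 ≤ R) ∧ K * |d3 W.1 W.2.1 W.2.2| < Q ∧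
    Adm W (c₁ 2) (c₂ 2) (c₃ 2) ∧ ∃ U, U ∈ UQ (red Q c₁) (red Q c₂) (red Q c₃)
      (red Q W.1) (red Q W.2.1) (red Q W.2.2) := by
  unfold WS
  simp only [mem_filter, mem_product, mem_box]

lemma WS_det {R K : ℕ} {c₁ c₂ c₃ : V ℤ} {W : V ℤ × V ℤ × V ℤ} (h : W ∈ WS Q R K c₁ c₂ c₃) :
    ((d3 W.1 W.2.1 W.2.2 : ℤ) : ZMod Q) = d3 (red Q c₁) (red Q c₂) (red Q c₃) := by
  obtain ⟨-, -, -, U, hU⟩ := mem_WS.mp h
  obtain ⟨h0, h1, h2, h3⟩ := mem_UQ.mp hU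
  rw [red_d3, ← h1, ← h2, ← h3, d3_mulVec, h0, one_mul]

lemma eq_of_cast_eq {a b : ℤ} (h : (a : ZMod Q) = b) (hab : |a - b| < Q) : a = b := by
  have h1 : (Q : ℤ) ∣ a - b := (ZMod.intCast_eq_intCast_iff_dvd_sub b a Q).mp h.symm
  exact sub_eq_zero.mp (Int.eq_zero_of_abs_lt_dvd h1 hab)

lemma card_WS_le1 {R K : ℕ} (hK : 2 ≤ K) {c₁ c₂ c₃ : V ℤ}
    (h : d3 (red Q c₁) (red Q c₂) (red Q c₃) ≠ 0) :
    ((WS Q R K c₁ c₂ c₃).card : ℝ) ≤ 1492992 * (R : ℝ) ^ 6 * (Nat.log 2 (2 * R * R) + 1) := by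
  rcases (WS Q R K c₁ c₂ c₃).eq_empty_or_nonempty with he | ⟨W₀, hW₀⟩
  · rw [he]; simp only [card_empty, Nat.cast_zero]; positivity
  have hsub : WS Q R K c₁ c₂ c₃ ⊆ trip R R (d3 W₀.1 W₀.2.1 W₀.2.2) := by
    intro W hW
    have d1 := WS_det hW
    have d0 := WS_det hW₀
    obtain ⟨b1, s1, -⟩ := mem_WS.mp hW
    obtain ⟨-, s0, -⟩ := mem_WS.mp hW₀
    rw [mem_trip]
    refine ⟨b1, ?_, ?_⟩
    · intro hc
      apply h
      rw [← d1, d3_eq, hc]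
      simp [dt]
    · apply eq_of_cast_eq (d1.trans d0.symm)
      have := abs_sub (d3 W.1 W.2.1 W.2.2) (d3 W₀.1 W₀.2.1 W₀.2.2)
      have hK' : (2 : ℤ) ≤ K := by exact_mod_cast hK
      nlinarith [abs_nonneg (d3 W.1 W.2.1 W.2.2), abs_nonneg (d3 W₀.1 W₀.2.1 W₀.2.2)]
  have := card_trip_le (R₁ := R) (R₂ := R) (by omega) (d3 W₀.1 W₀.2.1 W₀.2.2)
  calc _ ≤ ((trip R R (d3 W₀.1 W₀.2.1 W₀.2.2)).card : ℝ) := by exact_mod_cast card_le_card hsub
    _ ≤ _ := this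
    _ = _ := by ring

lemma WS_sing {R K : ℕ} (hK : 1 ≤ K) {c₁ c₂ c₃ : V ℤ}
    (h : d3 (red Q c₁) (red Q c₂) (red Q c₃) = 0) {W : V ℤ × V ℤ × V ℤ}
    (hW : W ∈ WS Q R K c₁ c₂ c₃) : d3 W.1 W.2.1 W.2.2 = 0 := by
  have d1 := WS_det hW
  obtain ⟨-, s1, -⟩ := mem_WS.mp hW
  apply eq_of_cast_eq (Q := Q) (by rw [d1, h]; simp)
  have hK' : (1 : ℤ) ≤ K := by exact_mod_cast hK
  rw [sub_zero]
  nlinarith [abs_nonneg (d3 W.1 W.2.1 W.2.2)]

/-- rows of a triple of column vectors -/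
def row (W : V ℤ × V ℤ × V ℤ) (k : Fin 3) : V ℤ := ![W.1 k, W.2.1 k, W.2.2 k]

@[simp] lemma row_0 (W : V ℤ × V ℤ × V ℤ) (k : Fin 3) : row W k 0 = W.1 k := rfl
@[simp] lemma row_1 (W : V ℤ × V ℤ × V ℤ) (k : Fin 3) : row W k 1 = W.2.1 k := rfl
@[simp] lemma row_2 (W : V ℤ × V ℤ × V ℤ) (k : Fin 3) : row W k 2 = W.2.2 k := rfl

lemma exists_kernel {R : ℕ} {W : V ℤ × V ℤ × V ℤ}
    (hb : nrm W.1 ≤ R ∧ nrm W.2.1 ≤ R ∧ nrm W.2.2 ≤ R) (hd : d3 W.1 W.2.1 W.2.2 = 0)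
    (hc : cr W.1 W.2.1 ≠ 0) :
    ∃ η : V ℤ, Prim η ∧ nrm η ≤ 2 * R * R ∧ (∀ k, row W k ∈ perp η R) ∧
      ∃ u ∈ perp η R, ∃ v ∈ perp η R, cr u v ≠ 0 := by
  have hr : ∀ k, nrm (row W k) ≤ R := by
    intro k
    rw [nrm_le_iff]
    intro i
    fin_cases i
    · exact nrm_le_iff.mp hb.1 k
    · exact nrm_le_iff.mp hb.2.1 k
    · exact nrm_le_iff.mp hb.2.2 k
  have key : ∀ i j : Fin 3, cr (row W i) (row W j) ≠ 0 →
      (∀ k, d3 (row W i) (row W j) (row W k) = 0) →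
      ∃ η : V ℤ, Prim η ∧ nrm η ≤ 2 * R * R ∧ (∀ k, row W k ∈ perp η R) ∧
      ∃ u ∈ perp η R, ∃ v ∈ perp η R, cr u v ≠ 0 := by
    intro i j hij hk
    obtain ⟨η, h1, h2, -, -, h5⟩ := exists_normal hij
    have h6 : ∀ k, row W k ∈ perp η R := fun k => mem_perp.mpr ⟨hr k, h5 _ (hk k)⟩
    exact ⟨η, h1, h2.trans (nrm_cr_le (hr i) (hr j)), h6, _, h6 i, _, h6 j, hij⟩
  unfold d3 at hd
  by_cases h0 : cr (row W 1) (row W 2) = 0
  · by_cases h1 : cr (row W 2) (row W 0) = 0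
    · refine key 0 1 ?_ ?_
      · intro h2
        apply hc
        have e0 := congrFun h0 2
        have e1 := congrFun h1 2
        have e2 := congrFun h2 2
        simp only [cr_2, row_0, row_1, Pi.zero_apply] at e0 e1 e2
        rw [vext0]
        simp only [cr_0, cr_1, cr_2]
        exact ⟨by linear_combination e0, by linear_combination e1, by linear_combination e2⟩
      · intro k
        fin_cases k <;> simp [d3] <;> first | linear_combination hd | ring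
    · refine key 2 0 h1 ?_
      intro k
      fin_cases k <;> simp [d3] <;> first | linear_combination hd | ring
  · refine key 1 2 h0 ?_
    intro k
    fin_cases k <;> simp [d3] <;> first | linear_combination hd | ring

open Classical in
lemma card_kernel_le {c₁ c₂ c₃ : V (ZMod Q)} (h : cr c₁ c₂ ≠ 0) (S : ℕ) :
    (((box S).filter fun y : V ℤ => ∀ i, (y 0 : ZMod Q) * c₁ i + y 1 * c₂ i + y 2 * c₃ i = 0).card
      : ℝ) ≤ (2 * S + 1) * (2 * S / Q + 1) ^ 2 := by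
  have hQ : (0 : ℤ) < Q := by exact_mod_cast (Fact.out : Q.Prime).pos
  have hinj : ((box S).filter fun y : V ℤ =>
      ∀ i, (y 0 : ZMod Q) * c₁ i + y 1 * c₂ i + y 2 * c₃ i = 0).card ≤
      (Icc (-(S : ℤ)) S ×ˢ Icc (0 : ℤ) (2 * (S : ℤ) / Q) ×ˢ Icc (0 : ℤ) (2 * (S : ℤ) / Q)).card := by
    apply card_le_card_of_injOn
      (fun y : V ℤ => (y 2, (y 0 + (S : ℤ)) / (Q : ℤ), (y 1 + (S : ℤ)) / (Q : ℤ)))
    · intro y hy
      rw [mem_coe, mem_filter, mem_box, nrm_le_iff] at hy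
      simp only [coe_product, Set.mem_prod, mem_coe]
      exact ⟨mem_Icc.mpr (abs_le.mp (hy.1 2)), div_mem_Icc hQ (hy.1 0), div_mem_Icc hQ (hy.1 1)⟩
    · intro y hy y' hy' e
      rw [mem_coe, mem_filter] at hy hy'
      simp only [Prod.mk.injEq] at e
      obtain ⟨e2, e0, e1⟩ := e
      have r : ∀ i, ((y 0 : ZMod Q) - y' 0) * c₁ i + ((y 1 : ZMod Q) - y' 1) * c₂ i = 0 := by
        intro i
        have a := hy.2 i
        have b := hy'.2 i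
        rw [e2] at a
        linear_combination a - b
      have r0 : (y 0 : ZMod Q) = y' 0 := by
        by_contra hne
        apply h
        have hne' := sub_ne_zero.mpr hne
        rw [vext0]
        simp only [cr_0, cr_1, cr_2]
        refine ⟨mul_left_cancel₀ hne' ?_, mul_left_cancel₀ hne' ?_, mul_left_cancel₀ hne' ?_⟩
        · linear_combination c₂ 2 * r 1 - c₂ 1 * r 2
        · linear_combination c₂ 0 * r 2 - c₂ 2 * r 0
        · linear_combination c₂ 1 * r 0 - c₂ 0 * r 1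
      have r1 : (y 1 : ZMod Q) = y' 1 := by
        by_contra hne
        apply h
        have hne' := sub_ne_zero.mpr hne
        rw [vext0]
        simp only [cr_0, cr_1, cr_2]
        refine ⟨mul_left_cancel₀ hne' ?_, mul_left_cancel₀ hne' ?_, mul_left_cancel₀ hne' ?_⟩
        · linear_combination c₁ 1 * r 2 - c₁ 2 * r 1
        · linear_combination c₁ 2 * r 0 - c₁ 0 * r 2
        · linear_combination c₁ 0 * r 1 - c₁ 1 * r 0
      rw [vext]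
      exact ⟨eq_of_cast_eq r0 (abs_sub_lt_of_div_eq hQ e0),
        eq_of_cast_eq r1 (abs_sub_lt_of_div_eq hQ e1), e2⟩
  rw [card_product, card_product] at hinj
  have c1 : (Icc (-(S : ℤ)) S).card = 2 * S + 1 := by
    rw [Int.card_Icc]; omega
  have c2 := card_Icc_div_le (R := S) hQ (by positivity)
  rw [c1] at hinj
  push_cast at c2
  calc _ ≤ ((2 * S + 1 : ℕ) : ℝ) * (((Icc (0 : ℤ) (2 * (S : ℤ) / Q)).card : ℝ) *
        ((Icc (0 : ℤ) (2 * (S : ℤ) / Q)).card : ℝ)) := by exact_mod_cast hinj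
    _ ≤ ((2 * S + 1 : ℕ) : ℝ) * ((2 * S / Q + 1) * (2 * S / Q + 1)) := by gcongr
    _ = _ := by push_cast; ring

lemma card_WS_le2 {R K Z : ℕ} (hK : 1 ≤ K) (hZ : 1 ≤ Z) {c₁ c₂ c₃ : V ℤ}
    (hz₁ : |c₁ 2| ≤ Z) (hz₂ : |c₂ 2| ≤ Z) (hz₃ : |c₃ 2| ≤ Z)
    (h : d3 (red Q c₁) (red Q c₂) (red Q c₃) = 0) (hc : cr (red Q c₁) (red Q c₂) ≠ 0) :
    (Q : ℝ) ^ 2 * ((WS Q R K c₁ c₂ c₃).card : ℝ) ≤
      3499200 * (Z : ℝ) ^ 2 * (R : ℝ) ^ 6 * (Nat.log 2 (2 * R * R) + 1) := by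
  classical
  have hQ : (0 : ℝ) < Q := by exact_mod_cast (Fact.out : Q.Prime).pos
  set Y := (box (2 * R * R)).filter fun η => Prim η ∧
    (∃ u ∈ perp η R, ∃ v ∈ perp η R, cr u v ≠ 0) ∧ Q ≤ 3 * Z * nrm η ∧
    ∀ i, (η 0 : ZMod Q) * red Q c₁ i + η 1 * red Q c₂ i + η 2 * red Q c₃ i = 0 with hY
  have hsub : WS Q R K c₁ c₂ c₃ ⊆ Y.biUnion fun η =>
      (WS Q R K c₁ c₂ c₃).filter fun W => ∀ k, row W k ∈ perp η R := by
    intro W hW
    have hd := WS_sing hK h hW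
    obtain ⟨b, -, adm, U, hU⟩ := mem_WS.mp hW
    obtain ⟨u0, u1, u2, u3⟩ := mem_UQ.mp hU
    have hcw : cr W.1 W.2.1 ≠ 0 := by
      intro hz
      obtain ⟨c, hc'⟩ := exists_d3_ne hc
      apply hc'
      have := d3_mulVec U (red Q c₁) (red Q c₂) c
      rw [u0, one_mul, u1, u2, d3_eq, ← red_cr, hz, red_zero] at this
      rw [← this]
      simp [dt]
    obtain ⟨η, p1, p2, p3, p4⟩ := exists_kernel b hd hcw
    have rel : ∀ i, η 0 * W.1 i + η 1 * W.2.1 i + η 2 * W.2.2 i = 0 :=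
      fun i => (mem_perp.mp (p3 i)).2
    have relq : ∀ i, (η 0 : ZMod Q) * red Q c₁ i + η 1 * red Q c₂ i + η 2 * red Q c₃ i = 0 := by
      apply rel_pull (U := U) (by rw [u0]; exact one_ne_zero)
      intro i
      rw [u1, u2, u3]
      have := congrArg (Int.cast : ℤ → ZMod Q) (rel i)
      push_cast at this
      exact this
    rw [mem_biUnion]
    refine ⟨η, ?_, mem_filter.mpr ⟨hW, p3⟩⟩
    rw [hY, mem_filter, mem_box]
    refine ⟨p2, p1, p4, ?_, relq⟩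
    have s0 : η 0 * c₁ 2 + η 1 * c₂ 2 + η 2 * c₃ 2 ≠ 0 := fun hz => p1.ne_zero (adm η rel hz)
    have s1 : (Q : ℤ) ∣ η 0 * c₁ 2 + η 1 * c₂ 2 + η 2 * c₃ 2 := by
      rw [← ZMod.intCast_zmod_eq_zero_iff_dvd]
      push_cast
      exact relq 2
    have s2 : (Q : ℤ) ≤ |η 0 * c₁ 2 + η 1 * c₂ 2 + η 2 * c₃ 2| :=
      Int.le_of_dvd (abs_pos.mpr s0) ((dvd_abs _ _).mpr s1)
    have s3 := abs_add_three (η 0 * c₁ 2) (η 1 * c₂ 2) (η 2 * c₃ 2)
    have t : ∀ (i : Fin 3) (z : ℤ), |z| ≤ Z → |η i * z| ≤ nrm η * Z := by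
      intro i z hz
      rw [abs_mul]
      exact mul_le_mul (abs_le_nrm η i) hz (abs_nonneg _) (by positivity)
    have s4 : (Q : ℤ) ≤ 3 * Z * nrm η := by
      have := t 0 _ hz₁
      have := t 1 _ hz₂
      have := t 2 _ hz₃
      linarith
    exact_mod_cast s4
  have hone : ∀ η ∈ Y, (((WS Q R K c₁ c₂ c₃).filter fun W => ∀ k, row W k ∈ perp η R).card : ℝ)
      ≤ 5832 * (R : ℝ) ^ 6 * (1 / (nrm η : ℝ) ^ 3) := by
    intro η hη
    rw [hY, mem_filter] at hη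
    obtain ⟨-, hp, ⟨u, hu, v, hv, huv⟩, -⟩ := hη
    have c1 := card_perp_le hp hu hv huv
    have c3 : ((WS Q R K c₁ c₂ c₃).filter fun W => ∀ k, row W k ∈ perp η R).card ≤
        (perp η R ×ˢ perp η R ×ˢ perp η R).card := by
      apply card_le_card_of_injOn (fun W => (row W 0, row W 1, row W 2))
      · intro W hW
        rw [mem_coe, mem_filter] at hW
        simp only [coe_product, Set.mem_prod, mem_coe]
        exact ⟨hW.2 0, hW.2 1, hW.2 2⟩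
      · intro W _ W' _ e
        simp only [Prod.mk.injEq] at e
        obtain ⟨e0, e1, e2⟩ := e
        refine Prod.ext (vext.mpr ⟨congrFun e0 0, congrFun e1 0, congrFun e2 0⟩)
          (Prod.ext (vext.mpr ⟨congrFun e0 1, congrFun e1 1, congrFun e2 1⟩)
            (vext.mpr ⟨congrFun e0 2, congrFun e1 2, congrFun e2 2⟩))
    rw [card_product, card_product] at c3
    have hN : (0 : ℝ) < nrm η := by
      have := nrm_pos hp.ne_zero
      exact_mod_cast this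
    calc _ ≤ ((perp η R).card : ℝ) * ((perp η R).card * (perp η R).card) := by
          exact_mod_cast c3
      _ ≤ (18 * (R : ℝ) ^ 2 / nrm η) *
            ((18 * (R : ℝ) ^ 2 / nrm η) * (18 * (R : ℝ) ^ 2 / nrm η)) := by
          gcongr
      _ = _ := by field_simp; ring
  have hd := dyadic Y (2 * R * R) (600 * (Z : ℝ) ^ 2 / (Q : ℝ) ^ 2)
    (fun y hy => nrm_pos (mem_filter.mp hy).2.1.ne_zero)
    (fun y hy => mem_box.mp (mem_filter.mp hy).1) (by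
      intro k
      rcases (Y.filter fun y => Nat.log 2 (nrm y) = k).eq_empty_or_nonempty with he | ⟨y₀, hy₀⟩
      · rw [he]; simp only [card_empty, Nat.cast_zero]; positivity
      have hlt : ∀ y ∈ Y.filter fun y => Nat.log 2 (nrm y) = k, nrm y ≤ 2 ^ (k + 1) := by
        intro y hy
        have := Nat.lt_pow_succ_log_self (b := 2) (by norm_num) (nrm y)
        rw [(mem_filter.mp hy).2] at this
        exact this.le
      have h1 : (Y.filter fun y => Nat.log 2 (nrm y) = k) ⊆ (box (2 ^ (k + 1))).filter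
          fun y : V ℤ => ∀ i, (y 0 : ZMod Q) * red Q c₁ i + y 1 * red Q c₂ i
            + y 2 * red Q c₃ i = 0 := by
        intro y hy
        rw [mem_filter, mem_box]
        exact ⟨hlt y hy, (mem_filter.mp (mem_filter.mp hy).1).2.2.2.2⟩
      have h2 := card_kernel_le (c₃ := red Q c₃) hc (2 ^ (k + 1))
      have h3 : Q ≤ 3 * Z * 2 ^ (k + 1) :=
        (mem_filter.mp (mem_filter.mp hy₀).1).2.2.2.1.trans (Nat.mul_le_mul_left _ (hlt _ hy₀))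
      have h4 : (Q : ℝ) ≤ 3 * Z * 2 ^ (k + 1) := by exact_mod_cast h3
      have h5 : (1 : ℝ) ≤ Z := by exact_mod_cast hZ
      have h6 : (1 : ℝ) ≤ 2 ^ (k + 1) := one_le_pow₀ (by norm_num)
      have h8 : (8 : ℝ) ^ k * 8 = (2 ^ (k + 1)) ^ 3 := by
        rw [← pow_mul, mul_comm (k + 1), pow_mul, pow_succ]; norm_num
      push_cast at h2
      generalize (2 : ℝ) ^ (k + 1) = S at *
      have h7 : 2 * S / Q + 1 ≤ 5 * Z * S / Q := by
        rw [div_add_one hQ.ne', div_le_div_iff_of_pos_right hQ]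
        nlinarith
      calc _ ≤ (((box (2 ^ (k + 1))).filter
          fun y : V ℤ => ∀ i, (y 0 : ZMod Q) * red Q c₁ i + y 1 * red Q c₂ i
            + y 2 * red Q c₃ i = 0).card : ℝ) := by exact_mod_cast card_le_card h1
        _ ≤ (2 * S + 1) * (2 * S / Q + 1) ^ 2 := h2
        _ ≤ (3 * S) * (5 * Z * S / Q) ^ 2 := by gcongr; linarith
        _ = 75 * (Z : ℝ) ^ 2 / (Q : ℝ) ^ 2 * S ^ 3 := by field_simp; ring
        _ = _ := by rw [← h8]; ring)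
  calc (Q : ℝ) ^ 2 * ((WS Q R K c₁ c₂ c₃).card : ℝ)
      ≤ (Q : ℝ) ^ 2 * ∑ η ∈ Y, (((WS Q R K c₁ c₂ c₃).filter
        fun W => ∀ k, row W k ∈ perp η R).card : ℝ) := by
        gcongr
        exact_mod_cast (card_le_card hsub).trans card_biUnion_le
    _ ≤ (Q : ℝ) ^ 2 * ∑ η ∈ Y, 5832 * (R : ℝ) ^ 6 * (1 / (nrm η : ℝ) ^ 3) := by
        gcongr with η hη
        exact hone η hη
    _ = (Q : ℝ) ^ 2 * (5832 * (R : ℝ) ^ 6 * ∑ η ∈ Y, (1 / (nrm η : ℝ) ^ 3)) := by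
        rw [← mul_sum]
    _ ≤ (Q : ℝ) ^ 2 * (5832 * (R : ℝ) ^ 6 *
          (600 * (Z : ℝ) ^ 2 / (Q : ℝ) ^ 2 * (Nat.log 2 (2 * R * R) + 1))) := by
        gcongr
    _ = _ := by field_simp; ring

end Crest.Agent.R32
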