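import Crest.Agent.R32.Count1

set_option autoImplicit false

namespace Crest.Agent.R32

open Finset

variable {Q : ℕ} [Fact Q.Prime]

lemma dvd_of_par {U : Matrix (Fin 3) (Fin 3) (ZMod Q)} {c c' w w' : V ℤ}
    (h : cr (red Q c) (red Q c') = 0) (e : U.mulVec (red Q c) = red Q w)
    (e' : U.mulVec (red Q c') = red Q w') (k : Fin 3) :
    (Q : ℤ) ∣ c 2 * w' k - c' 2 * w k := by
  rw [← ZMod.intCast_zmod_eq_zero_iff_dvd]
  push_cast
  have h1 := par_of_cr h 2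
  have e1 := congrFun e k
  have e2 := congrFun e' k
  rw [mulVec_0] at e1 e2
  have h0 := h1 0
  have h2 := h1 1
  simp only [red] at *
  linear_combination ((c' 2 : ℤ) : ZMod Q) * e1 - ((c 2 : ℤ) : ZMod Q) * e2
    + U k 0 * h0 + U k 1 * h2

lemma card_WS_le3 {P K Z : ℕ} (hK : 1 ≤ K) (hZ : 2 * Z ≤ Q) {c₁ c₂ c₃ : V ℤ}
    (hz : c₁ 2 ≠ 0) (hz₁ : |c₁ 2| ≤ Z) (hz₂ : |c₂ 2| ≤ Z) (hz₃ : |c₃ 2| ≤ Z)
    (h : d3 (red Q c₁) (red Q c₂) (red Q c₃) = 0) (h12 : cr (red Q c₁) (red Q c₂) = 0)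
    (h13 : cr (red Q c₁) (red Q c₃) = 0) :
    (Q : ℝ) ^ 5 * ((WS Q (2 * P * Q) K c₁ c₂ c₃).card : ℝ) ≤
      23887872 * Q * (Z : ℝ) ^ 4 * ((2 * P * Q : ℕ) : ℝ) ^ 6 *
        (Nat.log 2 (2 * (2 * P * Q) * (2 * P * Q)) + 1) := by
  have hQ : (0 : ℤ) < Q := by exact_mod_cast (Fact.out : Q.Prime).pos
  have hle : 4 * Z * P ≤ 2 * P * Q := by nlinarith
  have hinj : (WS Q (2 * P * Q) K c₁ c₂ c₃).card ≤ (trip (4 * Z * P) (2 * P * Q) 0).card := by
    have hdiv : ∀ W ∈ WS Q (2 * P * Q) K c₁ c₂ c₃, ∀ k,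
        Q * ((c₁ 2 * W.2.1 k - c₂ 2 * W.1 k) / Q) = c₁ 2 * W.2.1 k - c₂ 2 * W.1 k ∧
        Q * ((c₁ 2 * W.2.2 k - c₃ 2 * W.1 k) / Q) = c₁ 2 * W.2.2 k - c₃ 2 * W.1 k := by
      intro W hW k
      obtain ⟨-, -, -, U, hU⟩ := mem_WS.mp hW
      obtain ⟨-, u1, u2, u3⟩ := mem_UQ.mp hU
      exact ⟨Int.mul_ediv_cancel' (dvd_of_par h12 u1 u2 k),
        Int.mul_ediv_cancel' (dvd_of_par h13 u1 u3 k)⟩
    apply card_le_card_of_injOn (fun W : V ℤ × V ℤ × V ℤ =>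
      ((fun k => (c₁ 2 * W.2.1 k - c₂ 2 * W.1 k) / Q : V ℤ),
        (fun k => (c₁ 2 * W.2.2 k - c₃ 2 * W.1 k) / Q : V ℤ), W.1))
    · intro W hW
      have hd := WS_sing hK h hW
      have hv := hdiv W hW
      obtain ⟨b, -, adm, -⟩ := mem_WS.mp hW
      rw [mem_coe, mem_trip]
      dsimp only
      generalize ha : (fun k => (c₁ 2 * W.2.1 k - c₂ 2 * W.1 k) / Q : V ℤ) = a
      generalize hb : (fun k => (c₁ 2 * W.2.2 k - c₃ 2 * W.1 k) / Q : V ℤ) = b'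
      have ea : ∀ k, Q * a k = c₁ 2 * W.2.1 k - c₂ 2 * W.1 k := fun k => ha ▸ (hv k).1
      have eb : ∀ k, Q * b' k = c₁ 2 * W.2.2 k - c₃ 2 * W.1 k := fun k => hb ▸ (hv k).2
      have bound : ∀ x y : ℤ, Q * x = y → |y| ≤ 2 * Z * ((2 * P * Q : ℕ) : ℤ) →
          |x| ≤ ((4 * Z * P : ℕ) : ℤ) := by
        intro x y e hy
        rw [← e, abs_mul, abs_of_pos hQ] at hy
        push_cast at hy ⊢
        apply le_of_mul_le_mul_left _ hQ
        linarith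
      refine ⟨⟨?_, ?_, b.1⟩, ?_, ?_⟩
      · exact nrm_le_iff.mpr fun k => bound _ _ (ea k)
          (abs_minor_le hz₁ (nrm_le_iff.mp b.2.1 k) hz₂ (nrm_le_iff.mp b.1 k))
      · exact nrm_le_iff.mpr fun k => bound _ _ (eb k)
          (abs_minor_le hz₁ (nrm_le_iff.mp b.2.2 k) hz₃ (nrm_le_iff.mp b.1 k))
      · intro hc
        have hc' : cr a b' = 0 := hc
        have : ∃ μ ν : ℤ, ¬(μ = 0 ∧ ν = 0) ∧ ∀ k, μ * a k + ν * b' k = 0 := by
          by_cases ha0 : a = 0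
          · exact ⟨1, 0, by simp, by simp [ha0]⟩
          · obtain ⟨j, hj⟩ := Function.ne_iff.mp ha0
            refine ⟨b' j, -a j, fun hh => hj (neg_eq_zero.mp hh.2), fun k => ?_⟩
            linear_combination -par_of_cr hc' j k
        obtain ⟨μ, ν, hne, e⟩ := this
        have := adm ![-μ * c₂ 2 - ν * c₃ 2, μ * c₁ 2, ν * c₁ 2] (by
          intro i
          show (-μ * c₂ 2 - ν * c₃ 2) * W.1 i + μ * c₁ 2 * W.2.1 i + ν * c₁ 2 * W.2.2 i = 0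
          linear_combination Q * e i - μ * ea i - ν * eb i) (by
          show (-μ * c₂ 2 - ν * c₃ 2) * c₁ 2 + μ * c₁ 2 * c₂ 2 + ν * c₁ 2 * c₃ 2 = 0
          ring)
        have t1 : μ * c₁ 2 = 0 := congrFun this 1
        have t2 : ν * c₁ 2 = 0 := congrFun this 2
        exact hne ⟨(mul_eq_zero.mp t1).resolve_right hz, (mul_eq_zero.mp t2).resolve_right hz⟩
      · show d3 a b' W.1 = 0
        have : (Q : ℤ) * Q * d3 a b' W.1 = c₁ 2 * c₁ 2 * d3 W.1 W.2.1 W.2.2 := by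
          have : (Q : ℤ) * Q * d3 a b' W.1 =
              d3 (fun k => Q * a k) (fun k => Q * b' k) W.1 := by
            simp only [d3]; ring
          rw [this]
          simp only [ea, eb, d3]
          ring
        rw [hd, mul_zero] at this
        exact (mul_eq_zero.mp this).resolve_left (by positivity)
    · intro W hW W' hW' e
      simp only [Prod.mk.injEq] at e
      obtain ⟨e1, e2, e3⟩ := e
      refine Prod.ext e3 (Prod.ext ?_ ?_)
      · funext k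
        have a := (hdiv W hW k).1
        have b := (hdiv W' hW' k).1
        have c := congrFun e1 k
        rw [c, b, e3] at a
        apply mul_left_cancel₀ hz
        linear_combination -a
      · funext k
        have a := (hdiv W hW k).2
        have b := (hdiv W' hW' k).2
        have c := congrFun e2 k
        rw [c, b, e3] at a
        apply mul_left_cancel₀ hz
        linear_combination -a
  have c1 := card_trip_le (R₁ := 4 * Z * P) (R₂ := 2 * P * Q) (by omega) 0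
  have c2 : Nat.log 2 (2 * (4 * Z * P) * (4 * Z * P)) ≤
      Nat.log 2 (2 * (2 * P * Q) * (2 * P * Q)) :=
    Nat.log_mono_right (Nat.mul_le_mul (Nat.mul_le_mul_left _ hle) hle)
  have c3 : (Nat.log 2 (2 * (4 * Z * P) * (4 * Z * P)) : ℝ) ≤
      Nat.log 2 (2 * (2 * P * Q) * (2 * P * Q)) := by exact_mod_cast c2
  calc _ ≤ (Q : ℝ) ^ 5 * ((trip (4 * Z * P) (2 * P * Q) 0).card : ℝ) := by
        gcongr
    _ ≤ (Q : ℝ) ^ 5 * (1492992 * ((4 * Z * P : ℕ) : ℝ) ^ 4 * ((2 * P * Q : ℕ) : ℝ) ^ 2 *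
        (Nat.log 2 (2 * (2 * P * Q) * (2 * P * Q)) + 1)) := by
        gcongr
        refine c1.trans ?_
        gcongr
    _ = _ := by push_cast; ring

variable (Q)

open Classical in
/-- pairs of a unimodular matrix and an integer triple over its image -/
noncomputable def MQ (R K : ℕ) (c₁ c₂ c₃ : V ℤ) :
    Finset (Matrix (Fin 3) (Fin 3) (ZMod Q) × V ℤ × V ℤ × V ℤ) :=
  (univ ×ˢ WS Q R K c₁ c₂ c₃).filter fun t => t.1 ∈ UQ (red Q c₁) (red Q c₂) (red Q c₃)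
      (red Q t.2.1) (red Q t.2.2.1) (red Q t.2.2.2)

variable {Q}

lemma mem_MQ {R K : ℕ} {c₁ c₂ c₃ : V ℤ}
    {t : Matrix (Fin 3) (Fin 3) (ZMod Q) × V ℤ × V ℤ × V ℤ} : t ∈ MQ Q R K c₁ c₂ c₃ ↔
    t.2 ∈ WS Q R K c₁ c₂ c₃ ∧ t.1 ∈ UQ (red Q c₁) (red Q c₂) (red Q c₃)
      (red Q t.2.1) (red Q t.2.2.1) (red Q t.2.2.2) := by
  unfold MQ
  simp only [mem_filter, mem_product, mem_univ, true_and]

lemma card_MQ_le {R K n : ℕ} {c₁ c₂ c₃ : V ℤ}
    (h : ∀ w₁ w₂ w₃, (UQ (red Q c₁) (red Q c₂) (red Q c₃) w₁ w₂ w₃).card ≤ n) :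
    (MQ Q R K c₁ c₂ c₃).card ≤ n * (WS Q R K c₁ c₂ c₃).card := by
  classical
  apply card_le_mul_card_image_of_maps_to (f := fun t => t.2)
  · intro t ht; exact (mem_MQ.mp ht).1
  · intro W _
    refine le_trans ?_ (h (red Q W.1) (red Q W.2.1) (red Q W.2.2))
    apply card_le_card_of_injOn (fun t => t.1)
    · intro t ht
      rw [mem_coe, mem_filter] at ht
      have := (mem_MQ.mp ht.1).2
      rw [ht.2] at this
      exact this
    · intro t ht t' ht' e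
      rw [mem_coe, mem_filter] at ht ht'
      exact Prod.ext e (ht.2.trans ht'.2.symm)

lemma card_MQ_swap {R K : ℕ} {c₁ c₂ c₃ : V ℤ} :
    (MQ Q R K c₁ c₂ c₃).card ≤ (MQ Q R K c₁ c₃ c₂).card := by
  apply card_le_card_of_injOn (fun t => (t.1, t.2.1, t.2.2.2, t.2.2.1))
  · intro t ht
    rw [mem_coe, mem_MQ, mem_WS, mem_UQ] at ht
    obtain ⟨⟨b, s, adm, -⟩, u⟩ := ht
    have u' : t.1 ∈ UQ (red Q c₁) (red Q c₃) (red Q c₂)
      (red Q t.2.1) (red Q t.2.2.2) (red Q t.2.2.1) := mem_UQ.mpr ⟨u.1, u.2.1, u.2.2.2, u.2.2.1⟩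
    rw [mem_coe, mem_MQ, mem_WS]
    refine ⟨⟨⟨b.1, b.2.2, b.2.1⟩, ?_, ?_, _, u'⟩, u'⟩
    · have : d3 t.2.1 t.2.2.2 t.2.2.1 = -d3 t.2.1 t.2.2.1 t.2.2.2 := by
        simp only [d3]; ring
      show (K : ℤ) * |d3 t.2.1 t.2.2.2 t.2.2.1| < Q
      rw [this, abs_neg]
      exact s
    · intro y e1 e2
      have := adm ![y 0, y 2, y 1] (fun i => by
        have := e1 i
        show y 0 * _ + y 2 * _ + y 1 * _ = 0
        linear_combination this) (by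
        show y 0 * _ + y 2 * _ + y 1 * _ = 0
        linear_combination e2)
      rw [vext0] at this ⊢
      exact ⟨this.1, this.2.2, this.2.1⟩
  · rintro ⟨U, a, b, c⟩ - ⟨U', a', b', c'⟩ - e
    simp only [Prod.mk.injEq] at e ⊢
    exact ⟨e.1, e.2.1, e.2.2.2, e.2.2.1⟩

open Classical in
/-- the combined bound -/
lemma card_MQ_le_all {P K Z : ℕ} (hK : 2 ≤ K) (hZ : 2 * Z ≤ Q) {c₁ c₂ c₃ : V ℤ}
    (hz : 1 ≤ c₁ 2) (hz₁ : |c₁ 2| ≤ Z) (hz₂ : |c₂ 2| ≤ Z) (hz₃ : |c₃ 2| ≤ Z) :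
    ((MQ Q (2 * P * Q) K c₁ c₂ c₃).card : ℝ) ≤
      24000000 * ((2 * P * Q : ℕ) : ℝ) ^ 6 * (Nat.log 2 (2 * (2 * P * Q) * (2 * P * Q)) + 1) *
      (1 + (if d3 (red Q c₁) (red Q c₂) (red Q c₃) = 0 then (Z : ℝ) ^ 2 else 0)
        + (if cr (red Q c₁) (red Q c₂) = 0 ∧ cr (red Q c₁) (red Q c₃) = 0
          then Q * (Z : ℝ) ^ 4 else 0)) := by
  have hZ1 : 1 ≤ Z := by
    have := (le_abs_self _).trans hz₁
    omega
  have hcard : Fintype.card (ZMod Q) = Q := ZMod.card Q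
  set T : ℝ := ((2 * P * Q : ℕ) : ℝ) ^ 6 * (Nat.log 2 (2 * (2 * P * Q) * (2 * P * Q)) + 1)
    with hT
  have hT0 : 0 ≤ T := by positivity
  rw [mul_assoc (24000000 : ℝ), ← hT]
  have two : ∀ c₂ c₃ : V ℤ, |c₂ 2| ≤ Z → |c₃ 2| ≤ Z →
      d3 (red Q c₁) (red Q c₂) (red Q c₃) = 0 → cr (red Q c₁) (red Q c₂) ≠ 0 →
      ((MQ Q (2 * P * Q) K c₁ c₂ c₃).card : ℝ) ≤ 3499200 * (Z : ℝ) ^ 2 * T := by
    intro c₂ c₃ hz₂ hz₃ h hc
    have c1 := card_MQ_le (R := 2 * P * Q) (K := K) (card_UQ_le2 hc (red Q c₃))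
    have c2 := card_WS_le2 (R := 2 * P * Q) (K := K) (by omega) hZ1 hz₁ hz₂ hz₃ h hc
    rw [hcard] at c1
    rw [hT, ← mul_assoc]
    refine le_trans ?_ c2
    exact_mod_cast c1
  have hZT : 0 ≤ (Z : ℝ) ^ 2 * T := by positivity
  have hQT : 0 ≤ Q * (Z : ℝ) ^ 4 * T := by positivity
  by_cases h : d3 (red Q c₁) (red Q c₂) (red Q c₃) = 0
  · rw [if_pos h]
    by_cases h12 : cr (red Q c₁) (red Q c₂) = 0
    · by_cases h13 : cr (red Q c₁) (red Q c₃) = 0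
      · rw [if_pos ⟨h12, h13⟩]
        have hz' : red Q c₁ 2 ≠ 0 := by
          intro e
          have e' : ((c₁ 2 : ℤ) : ZMod Q) = ((0 : ℤ) : ZMod Q) := by simpa [red] using e
          have := eq_of_cast_eq e' (by rw [sub_zero]; omega)
          omega
        have c1 := card_MQ_le (R := 2 * P * Q) (K := K)
          (card_UQ_le5 hz' (red Q c₂) (red Q c₃))
        have c2 := card_WS_le3 (P := P) (K := K) (by omega) hZ (by omega) hz₁ hz₂ hz₃ h h12 h13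
        rw [hcard] at c1
        have c3 : ((MQ Q (2 * P * Q) K c₁ c₂ c₃).card : ℝ) ≤ 23887872 * (Q * (Z : ℝ) ^ 4 * T) := by
          calc _ ≤ (Q : ℝ) ^ 5 * ((WS Q (2 * P * Q) K c₁ c₂ c₃).card : ℝ) := by exact_mod_cast c1
            _ ≤ _ := c2
            _ = _ := by rw [hT]; ring
        nlinarith
      · rw [if_neg (fun hh => h13 hh.2)]
        have h' : d3 (red Q c₁) (red Q c₃) (red Q c₂) = 0 := by
          unfold d3 at h ⊢
          linear_combination -h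
        have c1 := two c₃ c₂ hz₃ hz₂ h' h13
        have c2 : ((MQ Q (2 * P * Q) K c₁ c₂ c₃).card : ℝ) ≤
          (MQ Q (2 * P * Q) K c₁ c₃ c₂).card := by exact_mod_cast card_MQ_swap
        nlinarith
    · rw [if_neg (fun hh => h12 hh.1)]
      have c1 := two c₂ c₃ hz₂ hz₃ h h12
      nlinarith
  · rw [if_neg h]
    have c1 := card_MQ_le (R := 2 * P * Q) (K := K) (card_UQ_le1 h)
    have c2 := card_WS_le1 (R := 2 * P * Q) hK h
    rw [mul_assoc (1492992 : ℝ), ← hT] at c2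
    have c3 : ((MQ Q (2 * P * Q) K c₁ c₂ c₃).card : ℝ) ≤ (WS Q (2 * P * Q) K c₁ c₂ c₃).card := by
      exact_mod_cast (by simpa using c1)
    split_ifs <;> nlinarith

end Crest.Agent.R32
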