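import Crest.Agent.R32.Count2

set_option autoImplicit false

namespace Crest.Agent.R32

open Finset

variable {P Q : ℕ} [Fact P.Prime] [Fact Q.Prime]

/-- matrices modulo `m` -/
abbrev Mat (m : ℕ) := Matrix (Fin 3) (Fin 3) (ZMod m)

/-- the parameter space of the paraboloid modulo `m` -/
abbrev Xp (m : ℕ) := (ZMod m)ˣ × ZMod m

lemma adm_of_BP {ε : ZMod P} (hε : ¬IsSquare ε) {z₁ z₂ z₃ : ℤ} (hz₁ : (z₁ : ZMod P) ≠ 0)
    (hz₂ : (z₂ : ZMod P) ≠ 0) (hz₃ : (z₃ : ZMod P) ≠ 0) {W : V ℤ × V ℤ × V ℤ}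
    {t : Mat P × Xp P × Xp P × Xp P}
    (ht : t ∈ BP ε z₁ z₂ z₃ (red P W.1) (red P W.2.1) (red P W.2.2)) : Adm W z₁ z₂ z₃ := by
  intro y e1 e2
  by_contra hy
  obtain ⟨g, η, hg, ⟨u, hu⟩, he, -⟩ := exists_prim hy
  rw [he 0, he 1, he 2] at e2
  have f1 : ∀ i, η 0 * W.1 i + η 1 * W.2.1 i + η 2 * W.2.2 i = 0 := by
    intro i
    have := e1 i
    rw [he 0, he 1, he 2] at this
    apply mul_left_cancel₀ hg
    linear_combination this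
  have f2 : η 0 * z₁ + η 1 * z₂ + η 2 * z₃ = 0 := by
    apply mul_left_cancel₀ hg
    linear_combination e2
  have r := BP_rel ht (α := η 0) (β := η 1) (γ := η 2) (fun i => by
    have := congrArg (Int.cast : ℤ → ZMod P) (f1 i)
    push_cast at this
    exact this)
  obtain ⟨-, ⟨n12, n13, n23⟩, -⟩ := mem_BP.mp ht
  have f3 := congrArg (Int.cast : ℤ → ZMod P) f2
  push_cast at f3
  obtain ⟨a, b, c⟩ := ut_cap hε n12 n13 n23 f3 r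
  have a' := (mul_eq_zero.mp a).resolve_right hz₁
  have b' := (mul_eq_zero.mp b).resolve_right hz₂
  have c' := (mul_eq_zero.mp c).resolve_right hz₃
  have f4 := congrArg (Int.cast : ℤ → ZMod P) hu
  unfold dt at f4
  push_cast at f4
  rw [a', b', c'] at f4
  simp at f4

variable (P Q) in
open Classical in
/-- the space of pairs of matrices -/
noncomputable def Om : Finset (Mat Q × Mat P) :=
  (univ.filter fun U : Mat Q => U.det ∈ ({1} : Finset (ZMod Q))) ×ˢ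
    (univ.filter fun U : Mat P => U.det ∈ univ.erase (0 : ZMod P))

lemma mem_Om {ω : Mat Q × Mat P} : ω ∈ Om P Q ↔ ω.1.det = 1 ∧ ω.2.det ≠ 0 := by
  unfold Om
  simp

lemma card_Om_ge : (Q : ℝ) ^ 8 * (P : ℝ) ^ 9 ≤ 32 * (Om P Q).card := by
  classical
  have c1 := card_det_mem_ge (F := ZMod Q) {1}
  have c2 := card_det_mem_ge (F := ZMod P) (univ.erase 0)
  rw [card_erase_of_mem (mem_univ _), card_univ] at c2
  rw [card_singleton] at c1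
  rw [ZMod.card] at c1 c2
  have hP := (Fact.out : P.Prime).two_le
  have hQ := (Fact.out : Q.Prime).two_le
  have e : (Om P Q).card = (univ.filter fun U : Mat Q => U.det ∈ ({1} : Finset (ZMod Q))).card *
      (univ.filter fun U : Mat P => U.det ∈ univ.erase (0 : ZMod P)).card := by
    unfold Om
    rw [card_product]
  have h1 : Q ≤ 2 * (Q - 1) := by omega
  have h2 : P ≤ 2 * (P - 1) := by omega
  have : Q ^ 8 * P ^ 9 ≤ 32 * (Om P Q).card := by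
    calc Q ^ 8 * P ^ 9 = Q ^ 2 * Q ^ 6 * (P ^ 3 * P ^ 6) := by ring
      _ ≤ (2 * (Q - 1)) ^ 2 * Q ^ 6 * ((2 * (P - 1)) ^ 3 * P ^ 6) := by gcongr
      _ = 32 * ((1 * ((Q - 1) ^ 2 * Q ^ 6)) * ((P - 1) * ((P - 1) ^ 2 * P ^ 6))) := by ring
      _ ≤ _ := by
        rw [e]
        apply Nat.mul_le_mul_left
        apply Nat.mul_le_mul
        · convert c1
        · convert c2
  exact_mod_cast this

open Classical in
/-- bad triples of samples -/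
noncomputable def Bad3 {α : Type} [Fintype α] (K : ℕ) (w : α × Xp P → V ℤ) :
    Finset ((α × Xp P) × (α × Xp P) × (α × Xp P)) :=
  univ.filter fun t => (t.1.2 ≠ t.2.1.2 ∧ t.1.2 ≠ t.2.2.2 ∧ t.2.1.2 ≠ t.2.2.2) ∧
    K * |d3 (w t.1) (w t.2.1) (w t.2.2)| < Q

lemma mem_Bad3 {α : Type} [Fintype α] {K : ℕ} {w : α × Xp P → V ℤ}
    {t : (α × Xp P) × (α × Xp P) × (α × Xp P)} : t ∈ Bad3 (Q := Q) K w ↔
    (t.1.2 ≠ t.2.1.2 ∧ t.1.2 ≠ t.2.2.2 ∧ t.2.1.2 ≠ t.2.2.2) ∧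
    K * |d3 (w t.1) (w t.2.1) (w t.2.2)| < Q := by
  unfold Bad3
  simp only [mem_filter, mem_univ, true_and]

lemma sum_bad_le {α : Type} [Fintype α] {ε : ZMod P} (hε : ¬IsSquare ε) (h2 : (2 : ZMod P) ≠ 0)
    (K R : ℕ) (c : α → V ℤ) (hz : ∀ a, ((c a 2 : ℤ) : ZMod P) ≠ 0)
    (w : Mat Q × Mat P → α × Xp P → V ℤ) (hw1 : ∀ ω s, nrm (w ω s) ≤ R)
    (hw2 : ∀ ω s, red Q (w ω s) = ω.1.mulVec (red Q (c s.1)))
    (hw3 : ∀ ω s, red P (w ω s) = ω.2.mulVec (vz ε (c s.1 2) s.2)) :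
    ∑ ω ∈ Om P Q, (Bad3 (Q := Q) K (w ω)).card ≤
      2 * P ^ 6 * ∑ τ : α × α × α, (MQ Q R K (c τ.1) (c τ.2.1) (c τ.2.2)).card := by
  classical
  set T := (Om P Q ×ˢ (univ : Finset ((α × Xp P) × (α × Xp P) × (α × Xp P)))).filter
    fun x => x.2 ∈ Bad3 (Q := Q) K (w x.1) with hT
  have e1 : ∑ ω ∈ Om P Q, (Bad3 (Q := Q) K (w ω)).card = T.card := by
    rw [hT, card_filter, sum_product]
    apply sum_congr rfl
    intro ω _
    rw [← card_filter]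
    congr 1
    ext t
    simp
  rw [e1, card_eq_sum_card_fiberwise (f := fun x => (x.2.1.1, x.2.2.1.1, x.2.2.2.1))
    (t := univ) (fun _ _ => mem_coe.mpr (mem_univ _)), mul_sum]
  apply sum_le_sum
  rintro ⟨a₁, a₂, a₃⟩ -
  have hmem : ∀ x ∈ T.filter fun x => (x.2.1.1, x.2.2.1.1, x.2.2.2.1) = (a₁, a₂, a₃),
      (x.1.2, x.2.1.2, x.2.2.1.2, x.2.2.2.2) ∈ BP ε (c a₁ 2) (c a₂ 2) (c a₃ 2)
        (red P (w x.1 x.2.1)) (red P (w x.1 x.2.2.1)) (red P (w x.1 x.2.2.2)) := by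
    intro x hx
    rw [mem_filter, hT, mem_filter, mem_product, mem_Om, mem_Bad3] at hx
    obtain ⟨⟨⟨hω, -⟩, hb⟩, he⟩ := hx
    simp only [Prod.mk.injEq] at he
    obtain ⟨rfl, rfl, rfl⟩ := he
    rw [mem_BP]
    exact ⟨hω.2, hb.1, (hw3 _ _).symm, (hw3 _ _).symm, (hw3 _ _).symm⟩
  apply card_le_mul_card_image_of_maps_to
    (f := fun x => (x.1.1, w x.1 x.2.1, w x.1 x.2.2.1, w x.1 x.2.2.2))
  · intro x hx
    have hB := hmem x hx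
    rw [mem_filter, hT, mem_filter, mem_product, mem_Om, mem_Bad3] at hx
    obtain ⟨⟨⟨hω, -⟩, hb⟩, he⟩ := hx
    simp only [Prod.mk.injEq] at he
    obtain ⟨rfl, rfl, rfl⟩ := he
    have hU : x.1.1 ∈ UQ (red Q (c x.2.1.1)) (red Q (c x.2.2.1.1)) (red Q (c x.2.2.2.1))
        (red Q (w x.1 x.2.1)) (red Q (w x.1 x.2.2.1)) (red Q (w x.1 x.2.2.2)) :=
      mem_UQ.mpr ⟨hω.1, (hw2 _ _).symm, (hw2 _ _).symm, (hw2 _ _).symm⟩
    rw [mem_MQ, mem_WS]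
    exact ⟨⟨⟨hw1 _ _, hw1 _ _, hw1 _ _⟩, hb.2,
      adm_of_BP (W := (w x.1 x.2.1, w x.1 x.2.2.1, w x.1 x.2.2.2)) hε (hz _) (hz _) (hz _) hB,
      _, hU⟩, hU⟩
  · rintro ⟨U, w₁, w₂, w₃⟩ -
    have := card_BP_le hε h2 (hz a₁) (hz a₂) (hz a₃) (red P w₁) (red P w₂) (red P w₃)
    rw [ZMod.card] at this
    refine le_trans ?_ this
    apply card_le_card_of_injOn (fun x => (x.1.2, x.2.1.2, x.2.2.1.2, x.2.2.2.2))
    · intro x hx
      rw [mem_coe, mem_filter] at hx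
      have hB := hmem x hx.1
      have he := hx.2
      simp only [Prod.mk.injEq] at he
      obtain ⟨-, f1, f2, f3⟩ := he
      rw [f1, f2, f3] at hB
      exact hB
    · rintro ⟨⟨U₁, U₁'⟩, ⟨b₁, x₁⟩, ⟨b₂, x₂⟩, ⟨b₃, x₃⟩⟩ hx
        ⟨⟨U₂, U₂'⟩, ⟨d₁, y₁⟩, ⟨d₂, y₂⟩, ⟨d₃, y₃⟩⟩ hy e
      rw [mem_coe, mem_filter, mem_filter] at hx hy
      obtain ⟨⟨-, g1⟩, g2⟩ := hx
      obtain ⟨⟨-, k1⟩, k2⟩ := hy
      simp only [Prod.mk.injEq] at e g1 g2 k1 k2 ⊢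
      exact ⟨⟨g2.1.trans k2.1.symm, e.1⟩, ⟨g1.1.trans k1.1.symm, e.2.1⟩,
        ⟨g1.2.1.trans k1.2.1.symm, e.2.2.1⟩, ⟨g1.2.2.trans k1.2.2.symm, e.2.2.2⟩⟩

lemma exists_crt (h : P ≠ Q) (a : ZMod Q) (b : ZMod P) :
    ∃ x : ℤ, 0 ≤ x ∧ x < P * Q ∧ (x : ZMod Q) = a ∧ (x : ZMod P) = b := by
  have hP : P.Prime := Fact.out
  have hQ : Q.Prime := Fact.out
  have co : P.Coprime Q := (Nat.coprime_primes hP hQ).mpr h
  obtain ⟨k, hk⟩ : ∃ k, k = Nat.chineseRemainder co b.val a.val := ⟨_, rfl⟩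
  have h1 : (k : ℕ) < P * Q := hk ▸ Nat.chineseRemainder_lt_mul co _ _ hP.ne_zero hQ.ne_zero
  refine ⟨(k : ℕ), by positivity, by exact_mod_cast h1, ?_, ?_⟩
  · rw [Int.cast_natCast, (ZMod.natCast_eq_natCast_iff _ _ _).mpr k.2.2]
    simp
  · rw [Int.cast_natCast, (ZMod.natCast_eq_natCast_iff _ _ _).mpr k.2.1]
    simp

lemma exists_lift (h : P ≠ Q) (u : V (ZMod Q)) (v : V (ZMod P)) :
    ∃ w : V ℤ, (0 ≤ w 0 ∧ w 0 < P * Q ∧ 0 ≤ w 1 ∧ w 1 < P * Q ∧ P * Q ≤ w 2 ∧ w 2 < 2 * P * Q) ∧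
      red Q w = u ∧ red P w = v := by
  obtain ⟨x, x1, x2, x3, x4⟩ := exists_crt h (u 0) (v 0)
  obtain ⟨y, y1, y2, y3, y4⟩ := exists_crt h (u 1) (v 1)
  obtain ⟨z, z1, z2, z3, z4⟩ := exists_crt h (u 2) (v 2)
  refine ⟨![x, y, z + P * Q], ⟨x1, x2, y1, y2, ?_, ?_⟩, ?_, ?_⟩
  · show (P : ℤ) * Q ≤ z + P * Q
    linarith
  · show z + P * Q < 2 * P * Q
    linarith
  · rw [vext]
    refine ⟨x3, y3, ?_⟩
    show ((z + P * Q : ℤ) : ZMod Q) = u 2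
    push_cast
    simp [z3]
  · rw [vext]
    refine ⟨x4, y4, ?_⟩
    show ((z + P * Q : ℤ) : ZMod P) = v 2
    push_cast
    simp [z4]

end Crest.Agent.R32
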