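import Mathlib

set_option autoImplicit false

namespace Crest.Agent.R32

open Finset Function

variable {ι S : Type} [Fintype ι] [DecidableEq ι] [Fintype S] [DecidableEq S]

lemma card_fix2 {i j : ι} (hij : i ≠ j) (A : Finset (S × S)) :
    (univ.filter fun φ : ι → S => (φ i, φ j) ∈ A).card * Fintype.card S ^ 2 ≤
      A.card * Fintype.card (ι → S) := by
  have e1 : Fintype.card S ^ 2 = (univ : Finset (S × S)).card := by simp [sq]
  rw [e1, ← card_univ, ← card_product, ← card_product]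
  apply card_le_card_of_injOn
    (fun x => ((x.1 i, x.1 j), update (update x.1 i x.2.1) j x.2.2))
  · intro x hx
    rw [mem_coe, mem_product, mem_filter] at hx
    rw [mem_coe, mem_product]
    exact ⟨hx.1.2, mem_univ _⟩
  · rintro ⟨φ, a, b⟩ - ⟨ψ, c, d⟩ - e
    simp only [Prod.mk.injEq] at e ⊢
    obtain ⟨⟨e1, e2⟩, e⟩ := e
    refine ⟨?_, ?_, ?_⟩
    · funext x
      by_cases h1 : x = i
      · rw [h1, e1]
      by_cases h2 : x = j
      · rw [h2, e2]
      have := congrFun e x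
      simpa [update_of_ne h1, update_of_ne h2] using this
    · have := congrFun e i
      simpa [update_of_ne hij] using this
    · have := congrFun e j
      simpa using this

lemma card_fix3 {i j k : ι} (hij : i ≠ j) (hik : i ≠ k) (hjk : j ≠ k) (A : Finset (S × S × S)) :
    (univ.filter fun φ : ι → S => (φ i, φ j, φ k) ∈ A).card * Fintype.card S ^ 3 ≤
      A.card * Fintype.card (ι → S) := by
  have e1 : Fintype.card S ^ 3 = (univ : Finset (S × S × S)).card := by
    simp [pow_succ, mul_assoc]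
  rw [e1, ← card_univ, ← card_product, ← card_product]
  apply card_le_card_of_injOn
    (fun x => ((x.1 i, x.1 j, x.1 k), update (update (update x.1 i x.2.1) j x.2.2.1) k x.2.2.2))
  · intro x hx
    rw [mem_coe, mem_product, mem_filter] at hx
    rw [mem_coe, mem_product]
    exact ⟨hx.1.2, mem_univ _⟩
  · rintro ⟨φ, a, b, c⟩ - ⟨ψ, a', b', c'⟩ - e
    simp only [Prod.mk.injEq] at e ⊢
    obtain ⟨⟨e1, e2, e3⟩, e⟩ := e
    refine ⟨?_, ?_, ?_, ?_⟩
    · funext x
      by_cases h1 : x = i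
      · rw [h1, e1]
      by_cases h2 : x = j
      · rw [h2, e2]
      by_cases h3 : x = k
      · rw [h3, e3]
      have := congrFun e x
      simpa [update_of_ne h1, update_of_ne h2, update_of_ne h3] using this
    · have := congrFun e i
      simpa [update_of_ne hij, update_of_ne hik] using this
    · have := congrFun e j
      simpa [update_of_ne hjk] using this
    · have := congrFun e k
      simpa using this

theorem deletion [Nonempty S] (B2 : Finset (S × S)) (B3 : Finset (S × S × S)) (n : ℕ)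
    (β₂ β₃ : ℝ) (p2 : 0 ≤ β₂) (p3 : 0 ≤ β₃) (h2 : (B2.card : ℝ) ≤ β₂ * (Fintype.card S : ℝ) ^ 2)
    (h3 : (B3.card : ℝ) ≤ β₃ * (Fintype.card S : ℝ) ^ 3)
    (h : 4 * (n : ℝ) ^ 2 * β₂ + 8 * (n : ℝ) ^ 3 * β₃ ≤ n) :
    ∃ g : Fin n → S, (∀ i j, i ≠ j → (g i, g j) ∉ B2) ∧
      ∀ i j k, i ≠ j → i ≠ k → j ≠ k → (g i, g j, g k) ∉ B3 := by
  have hS : (0 : ℝ) < Fintype.card S := by exact_mod_cast Fintype.card_pos
  set N := 2 * n with hN
  set bp : (Fin N → S) → Finset (Fin N × Fin N) :=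
    fun φ => univ.filter fun x => x.1 ≠ x.2 ∧ (φ x.1, φ x.2) ∈ B2 with hbp
  set bt : (Fin N → S) → Finset (Fin N × Fin N × Fin N) :=
    fun φ => univ.filter fun x => (x.1 ≠ x.2.1 ∧ x.1 ≠ x.2.2 ∧ x.2.1 ≠ x.2.2) ∧
      (φ x.1, φ x.2.1, φ x.2.2) ∈ B3 with hbt
  set M : ℝ := ((Fintype.card (Fin N → S) : ℕ) : ℝ) with hM
  have hM0 : 0 ≤ M := by positivity
  have s2 : ∑ φ, ((bp φ).card : ℝ) ≤ (N : ℝ) ^ 2 * (β₂ * M) := by
    have e : ∑ φ, (bp φ).card = ∑ x : Fin N × Fin N,
        (univ.filter fun φ : Fin N → S => x.1 ≠ x.2 ∧ (φ x.1, φ x.2) ∈ B2).card := by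
      simp only [hbp, card_filter]
      exact sum_comm
    have e' : ∑ φ, ((bp φ).card : ℝ) = ∑ x : Fin N × Fin N,
        ((univ.filter fun φ : Fin N → S => x.1 ≠ x.2 ∧ (φ x.1, φ x.2) ∈ B2).card : ℝ) := by
      exact_mod_cast e
    rw [e']
    refine (sum_le_card_nsmul _ _ (β₂ * M) ?_).trans ?_
    · rintro ⟨i, j⟩ -
      by_cases hij : i = j
      · simp [hij]; positivity
      · have c := card_fix2 hij B2
        have c' : ((univ.filter fun φ : Fin N → S => (φ i, φ j) ∈ B2).card : ℝ)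
          * (Fintype.card S : ℝ) ^ 2 ≤ B2.card * M := by rw [hM]; exact_mod_cast c
        simp only [ne_eq, hij, not_false_eq_true, true_and]
        apply le_of_mul_le_mul_right _ (pow_pos hS 2)
        nlinarith
    · simp [sq]
  have s3 : ∑ φ, ((bt φ).card : ℝ) ≤ (N : ℝ) ^ 3 * (β₃ * M) := by
    have e : ∑ φ, (bt φ).card = ∑ x : Fin N × Fin N × Fin N,
        (univ.filter fun φ : Fin N → S => (x.1 ≠ x.2.1 ∧ x.1 ≠ x.2.2 ∧ x.2.1 ≠ x.2.2) ∧
          (φ x.1, φ x.2.1, φ x.2.2) ∈ B3).card := by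
      simp only [hbt, card_filter]
      exact sum_comm
    have e' : ∑ φ, ((bt φ).card : ℝ) = ∑ x : Fin N × Fin N × Fin N,
        ((univ.filter fun φ : Fin N → S => (x.1 ≠ x.2.1 ∧ x.1 ≠ x.2.2 ∧ x.2.1 ≠ x.2.2) ∧
          (φ x.1, φ x.2.1, φ x.2.2) ∈ B3).card : ℝ) := by
      exact_mod_cast e
    rw [e']
    refine (sum_le_card_nsmul _ _ (β₃ * M) ?_).trans ?_
    · rintro ⟨i, j, k⟩ -
      by_cases hd : i ≠ j ∧ i ≠ k ∧ j ≠ k
      · have c := card_fix3 hd.1 hd.2.1 hd.2.2 B3
        have c' : ((univ.filter fun φ : Fin N → S => (φ i, φ j, φ k) ∈ B3).card : ℝ)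
          * (Fintype.card S : ℝ) ^ 3 ≤ B3.card * M := by rw [hM]; exact_mod_cast c
        simp only [ne_eq, hd.1, hd.2.1, hd.2.2, not_false_eq_true, true_and]
        apply le_of_mul_le_mul_right _ (pow_pos hS 3)
        nlinarith
      · simp only [hd, false_and, filter_false, card_empty, Nat.cast_zero]
        positivity
    · simp [pow_succ, mul_assoc]
  have hex : ∃ φ ∈ (univ : Finset (Fin N → S)), ((bp φ).card : ℝ) + (bt φ).card ≤ n := by
    apply exists_le_of_sum_le univ_nonempty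
    rw [sum_add_distrib, sum_const, card_univ, nsmul_eq_mul, ← hM]
    have hN' : (N : ℝ) = 2 * n := by rw [hN]; push_cast; ring
    rw [hN'] at s2 s3
    nlinarith
  obtain ⟨φ, -, hφ⟩ := hex
  have hφ' : (bp φ).card + (bt φ).card ≤ n := by exact_mod_cast hφ
  set D := (bp φ).image Prod.fst ∪ (bt φ).image Prod.fst with hD
  have hDc : D.card ≤ n :=
    (card_union_le _ _).trans ((Nat.add_le_add card_image_le card_image_le).trans hφ')
  have hI : n ≤ (univ \ D).card := by
    rw [card_sdiff_of_subset (subset_univ _), card_univ, Fintype.card_fin]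
    omega
  obtain ⟨J, hJ, hJc⟩ := exists_subset_card_eq hI
  have hnot : ∀ i, J.orderEmbOfFin hJc i ∉ D := fun i =>
    (mem_sdiff.mp (hJ (J.orderEmbOfFin_mem hJc i))).2
  have hinj := (J.orderEmbOfFin hJc).injective
  refine ⟨fun i => φ (J.orderEmbOfFin hJc i), ?_, ?_⟩
  · intro i j hij hb
    apply hnot i
    rw [hD, mem_union]
    left
    refine mem_image.mpr ⟨(J.orderEmbOfFin hJc i, J.orderEmbOfFin hJc j), ?_, rfl⟩
    exact mem_filter.mpr ⟨mem_univ _, hinj.ne hij, hb⟩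
  · intro i j k hij hik hjk hb
    apply hnot i
    rw [hD, mem_union]
    right
    refine mem_image.mpr
      ⟨(J.orderEmbOfFin hJc i, J.orderEmbOfFin hJc j, J.orderEmbOfFin hJc k), ?_, rfl⟩
    exact mem_filter.mpr ⟨mem_univ _, ⟨hinj.ne hij, hinj.ne hik, hinj.ne hjk⟩, hb⟩

end Crest.Agent.R32
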