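import Crest.Agent.R32.Count3
import Crest.Agent.R32.Deletion

set_option autoImplicit false

namespace Crest.Agent.R32

open Finset

variable {A : Type} [Fintype A] {E : ℕ}

/-- class vector plus a small shift -/
def cv (X Y Z : A → ℤ) (a : A × Fin E × Fin E) : V ℤ :=
  ![X a.1 + (a.2.1 : ℕ), Y a.1 + (a.2.2 : ℕ), Z a.1]

omit [Fintype A] in
@[simp] lemma cv_0 (X Y Z : A → ℤ) (a : A × Fin E × Fin E) :
  cv X Y Z a 0 = X a.1 + (a.2.1 : ℕ) := rfl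
omit [Fintype A] in
@[simp] lemma cv_1 (X Y Z : A → ℤ) (a : A × Fin E × Fin E) :
  cv X Y Z a 1 = Y a.1 + (a.2.2 : ℕ) := rfl
omit [Fintype A] in
@[simp] lemma cv_2 (X Y Z : A → ℤ) (a : A × Fin E × Fin E) : cv X Y Z a 2 = Z a.1 := rfl

open Classical in
lemma card_ND_le :
    (univ.filter fun τ : (A × Fin E × Fin E) × (A × Fin E × Fin E) × (A × Fin E × Fin E) =>
      ¬(τ.1.1 ≠ τ.2.1.1 ∧ τ.1.1 ≠ τ.2.2.1 ∧ τ.2.1.1 ≠ τ.2.2.1)).card ≤
      3 * (Fintype.card A ^ 2 * E ^ 6) := by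
  have hc : Fintype.card A ^ 2 * E ^ 6 = (univ : Finset
      ((A × Fin E × Fin E) × (A × Fin E × Fin E) × (Fin E × Fin E))).card := by
    simp only [card_univ, Fintype.card_prod, Fintype.card_fin]; ring
  have h1 : (univ.filter fun τ : (A × Fin E × Fin E) × (A × Fin E × Fin E) × (A × Fin E × Fin E) =>
      τ.1.1 = τ.2.1.1).card ≤ Fintype.card A ^ 2 * E ^ 6 := by
    rw [hc]
    apply card_le_card_of_injOn (fun τ => (τ.1, τ.2.2, τ.2.1.2))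
    · intro _ _; exact mem_coe.mpr (mem_univ _)
    · rintro ⟨⟨a, l⟩, ⟨b, m⟩, c⟩ h ⟨⟨a', l'⟩, ⟨b', m'⟩, c'⟩ h' e
      simp only [coe_filter, mem_univ, true_and, Set.mem_ofPred_eq] at h h'
      simp only [Prod.mk.injEq] at e ⊢
      exact ⟨e.1, ⟨h ▸ h' ▸ e.1.1, e.2.2⟩, e.2.1⟩
  have h2 : (univ.filter fun τ : (A × Fin E × Fin E) × (A × Fin E × Fin E) × (A × Fin E × Fin E) =>
      τ.1.1 = τ.2.2.1).card ≤ Fintype.card A ^ 2 * E ^ 6 := by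
    rw [hc]
    apply card_le_card_of_injOn (fun τ => (τ.1, τ.2.1, τ.2.2.2))
    · intro _ _; exact mem_coe.mpr (mem_univ _)
    · rintro ⟨⟨a, l⟩, c, ⟨b, m⟩⟩ h ⟨⟨a', l'⟩, c', ⟨b', m'⟩⟩ h' e
      simp only [coe_filter, mem_univ, true_and, Set.mem_ofPred_eq] at h h'
      simp only [Prod.mk.injEq] at e ⊢
      exact ⟨e.1, e.2.1, h ▸ h' ▸ e.1.1, e.2.2⟩
  have h3 : (univ.filter fun τ : (A × Fin E × Fin E) × (A × Fin E × Fin E) × (A × Fin E × Fin E) =>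
      τ.2.1.1 = τ.2.2.1).card ≤ Fintype.card A ^ 2 * E ^ 6 := by
    rw [hc]
    apply card_le_card_of_injOn (fun τ => (τ.1, τ.2.1, τ.2.2.2))
    · intro _ _; exact mem_coe.mpr (mem_univ _)
    · rintro ⟨c, ⟨a, l⟩, ⟨b, m⟩⟩ h ⟨c', ⟨a', l'⟩, ⟨b', m'⟩⟩ h' e
      simp only [coe_filter, mem_univ, true_and, Set.mem_ofPred_eq] at h h'
      simp only [Prod.mk.injEq] at e ⊢
      exact ⟨e.1, e.2.1, h ▸ h' ▸ e.2.1.1, e.2.2⟩
  refine le_trans (card_le_card (t := (univ.filter fun τ => τ.1.1 = τ.2.1.1) ∪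
    (univ.filter fun τ => τ.1.1 = τ.2.2.1) ∪ (univ.filter fun τ => τ.2.1.1 = τ.2.2.1)) ?_) ?_
  · intro τ hτ
    simp only [mem_filter, mem_univ, true_and, mem_union] at hτ ⊢
    tauto
  · refine (card_union_le _ _).trans ?_
    refine (Nat.add_le_add_right (card_union_le _ _) _).trans ?_
    omega

variable {Q : ℕ} [Fact Q.Prime]

lemma fin_eq_of_cast (hE : E ≤ Q) {x y : Fin E} (h : ((x : ℕ) : ZMod Q) = (y : ℕ)) : x = y := by
  have := eq_of_cast_eq (Q := Q) (a := (x : ℕ)) (b := (y : ℕ)) (by simpa using h) (by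
    have := x.2
    have := y.2
    rw [abs_lt]
    constructor <;> omega)
  exact Fin.ext (by exact_mod_cast this)

open Classical in
lemma card_D0_le (hE : E ≤ Q) (X Y Z : A → ℤ) (hZ : ∀ a, ((Z a : ℤ) : ZMod Q) ≠ 0) :
    (univ.filter fun τ : (A × Fin E × Fin E) × (A × Fin E × Fin E) × (A × Fin E × Fin E) =>
      d3 (red Q (cv X Y Z τ.1)) (red Q (cv X Y Z τ.2.1)) (red Q (cv X Y Z τ.2.2)) = 0).card ≤
      2 * (Fintype.card A ^ 3 * E ^ 5) := by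
  have hc : Fintype.card A ^ 3 * E ^ 5 = (univ : Finset
      ((A × Fin E × Fin E) × (A × Fin E × Fin E) × (A × Fin E))).card := by
    simp only [card_univ, Fintype.card_prod, Fintype.card_fin]; ring
  have h1 : (univ.filter fun τ : (A × Fin E × Fin E) × (A × Fin E × Fin E) × (A × Fin E × Fin E) =>
      cr (red Q (cv X Y Z τ.1)) (red Q (cv X Y Z τ.2.1)) 0 = 0).card ≤
      Fintype.card A ^ 3 * E ^ 5 := by
    rw [hc]
    apply card_le_card_of_injOn (fun τ => (τ.2.2, τ.2.1, τ.1.1, τ.1.2.1))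
    · intro _ _; exact mem_coe.mpr (mem_univ _)
    · rintro ⟨⟨a, l, m⟩, b, c⟩ h ⟨⟨a', l', m'⟩, b', c'⟩ h' e
      replace h := (mem_filter.mp (mem_coe.mp h)).2
      replace h' := (mem_filter.mp (mem_coe.mp h')).2
      simp only [cr_0, red, cv_1, cv_2] at h h'
      simp only [Prod.mk.injEq] at e ⊢
      obtain ⟨rfl, rfl, rfl, rfl⟩ := e
      refine ⟨⟨rfl, rfl, fin_eq_of_cast hE ?_⟩, rfl, rfl⟩
      push_cast at h h'
      apply mul_right_cancel₀ (hZ b.1)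
      linear_combination h - h'
  have h2 : (univ.filter fun τ : (A × Fin E × Fin E) × (A × Fin E × Fin E) × (A × Fin E × Fin E) =>
      cr (red Q (cv X Y Z τ.1)) (red Q (cv X Y Z τ.2.1)) 0 ≠ 0 ∧
      d3 (red Q (cv X Y Z τ.1)) (red Q (cv X Y Z τ.2.1)) (red Q (cv X Y Z τ.2.2)) = 0).card ≤
      Fintype.card A ^ 3 * E ^ 5 := by
    rw [hc]
    apply card_le_card_of_injOn (fun τ => (τ.1, τ.2.1, τ.2.2.1, τ.2.2.2.2))
    · intro _ _; exact mem_coe.mpr (mem_univ _)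
    · rintro ⟨b, c, ⟨a, l, m⟩⟩ h ⟨b', c', ⟨a', l', m'⟩⟩ h' e
      simp only [coe_filter, mem_univ, true_and, Set.mem_ofPred_eq] at h h'
      simp only [Prod.mk.injEq] at e ⊢
      obtain ⟨rfl, rfl, rfl, rfl⟩ := e
      refine ⟨rfl, rfl, rfl, fin_eq_of_cast hE ?_, rfl⟩
      apply mul_left_cancel₀ h.1
      have e1 := h.2
      have e2 := h'.2
      rw [d3_eq, dt] at e1 e2
      generalize cr (red Q (cv X Y Z b)) (red Q (cv X Y Z c)) = ξ at *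
      simp only [red, cv_0, cv_1, cv_2] at e1 e2
      push_cast at e1 e2
      linear_combination e1 - e2
  refine le_trans (card_le_card (t := (univ.filter fun τ =>
      cr (red Q (cv X Y Z τ.1)) (red Q (cv X Y Z τ.2.1)) 0 = 0) ∪
    (univ.filter fun τ => cr (red Q (cv X Y Z τ.1)) (red Q (cv X Y Z τ.2.1)) 0 ≠ 0 ∧
      d3 (red Q (cv X Y Z τ.1)) (red Q (cv X Y Z τ.2.1)) (red Q (cv X Y Z τ.2.2)) = 0)) ?_) ?_
  · intro τ hτ
    simp only [mem_filter, mem_univ, true_and, mem_union] at hτ ⊢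
    tauto
  · refine (card_union_le _ _).trans ?_
    omega

omit [Fintype A] in
lemma eq_of_par (hE : E ≤ Q) {X Y Z : A → ℤ} (hZ : ∀ a, ((Z a : ℤ) : ZMod Q) ≠ 0)
    {b : A × Fin E × Fin E} {a : A} {l l' : Fin E × Fin E}
    (h : cr (red Q (cv X Y Z b)) (red Q (cv X Y Z (a, l))) = 0)
    (h' : cr (red Q (cv X Y Z b)) (red Q (cv X Y Z (a, l'))) = 0) : l = l' := by
  have e0 := par_of_cr h 2 0
  have e1 := par_of_cr h 2 1
  have f0 := par_of_cr h' 2 0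
  have f1 := par_of_cr h' 2 1
  simp only [red, cv_0, cv_1, cv_2] at e0 e1 f0 f1
  push_cast at e0 e1 f0 f1
  refine Prod.ext (fin_eq_of_cast hE ?_) (fin_eq_of_cast hE ?_)
  · apply mul_left_cancel₀ (hZ b.1)
    linear_combination e0 - f0
  · apply mul_left_cancel₀ (hZ b.1)
    linear_combination e1 - f1

open Classical in
lemma card_R1_le (hE : E ≤ Q) (X Y Z : A → ℤ) (hZ : ∀ a, ((Z a : ℤ) : ZMod Q) ≠ 0) :
    (univ.filter fun τ : (A × Fin E × Fin E) × (A × Fin E × Fin E) × (A × Fin E × Fin E) =>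
      cr (red Q (cv X Y Z τ.1)) (red Q (cv X Y Z τ.2.1)) = 0 ∧
      cr (red Q (cv X Y Z τ.1)) (red Q (cv X Y Z τ.2.2)) = 0).card ≤
      Fintype.card A ^ 3 * E ^ 2 := by
  have hc : Fintype.card A ^ 3 * E ^ 2 = (univ : Finset
      ((A × Fin E × Fin E) × A × A)).card := by
    simp only [card_univ, Fintype.card_prod, Fintype.card_fin]; ring
  rw [hc]
  apply card_le_card_of_injOn (fun τ => (τ.1, τ.2.1.1, τ.2.2.1))
  · intro _ _; exact mem_coe.mpr (mem_univ _)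
  · rintro ⟨b, ⟨a, l⟩, ⟨c, m⟩⟩ h ⟨b', ⟨a', l'⟩, ⟨c', m'⟩⟩ h' e
    simp only [coe_filter, mem_univ, true_and, Set.mem_ofPred_eq] at h h'
    simp only [Prod.mk.injEq] at e ⊢
    obtain ⟨rfl, rfl, rfl⟩ := e
    exact ⟨rfl, ⟨rfl, eq_of_par hE hZ h.1 h'.1⟩, rfl, eq_of_par hE hZ h.2 h'.2⟩

lemma sum_MQ_le {P K Zm : ℕ} (hK : 2 ≤ K) (hZ : 2 * Zm ≤ Q) (hE : E ≤ Q) (X Y Z : A → ℤ)
    (hz1 : ∀ a, 1 ≤ Z a) (hz2 : ∀ a, Z a ≤ Zm)
    (hsep : ∀ a b c : A × Fin E × Fin E, a.1 ≠ b.1 → a.1 ≠ c.1 → b.1 ≠ c.1 → ∀ D : ℤ,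
      (D : ZMod Q) = d3 (red Q (cv X Y Z a)) (red Q (cv X Y Z b)) (red Q (cv X Y Z c)) →
        (Q : ℤ) ≤ K * |D|)
    (h1 : Zm ^ 2 * Fintype.card A ≤ E) (h2 : Q * Zm ^ 4 * Fintype.card A ≤ E ^ 4) :
    ∑ τ : (A × Fin E × Fin E) × (A × Fin E × Fin E) × (A × Fin E × Fin E),
      ((MQ Q (2 * P * Q) K (cv X Y Z τ.1) (cv X Y Z τ.2.1) (cv X Y Z τ.2.2)).card : ℝ) ≤
      24000000 * ((2 * P * Q : ℕ) : ℝ) ^ 6 * (Nat.log 2 (2 * (2 * P * Q) * (2 * P * Q)) + 1) *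
        (6 * ((Fintype.card A : ℝ) ^ 2 * (E : ℝ) ^ 6)) := by
  classical
  set T : ℝ := 24000000 * ((2 * P * Q : ℕ) : ℝ) ^ 6 *
    (Nat.log 2 (2 * (2 * P * Q) * (2 * P * Q)) + 1) with hT
  have hT0 : 0 ≤ T := by positivity
  have hQ := (Fact.out : Q.Prime).pos
  have hZq : ∀ a, ((Z a : ℤ) : ZMod Q) ≠ 0 := by
    intro a e
    have e' : ((Z a : ℤ) : ZMod Q) = ((0 : ℤ) : ZMod Q) := by simpa using e
    have h1 := hz1 a
    have h2 := hz2 a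
    have := eq_of_cast_eq e' (by rw [sub_zero, abs_lt]; omega)
    omega
  have habs : ∀ a : A × Fin E × Fin E, |cv X Y Z a 2| ≤ Zm := by
    intro a
    have h1 := hz1 a.1
    have h2 := hz2 a.1
    rw [cv_2, abs_le]
    omega
  have hone : ∀ τ : (A × Fin E × Fin E) × (A × Fin E × Fin E) × (A × Fin E × Fin E),
      ((MQ Q (2 * P * Q) K (cv X Y Z τ.1) (cv X Y Z τ.2.1) (cv X Y Z τ.2.2)).card : ℝ) ≤
      T * ((if ¬(τ.1.1 ≠ τ.2.1.1 ∧ τ.1.1 ≠ τ.2.2.1 ∧ τ.2.1.1 ≠ τ.2.2.1) then 1 else 0)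
        + (if d3 (red Q (cv X Y Z τ.1)) (red Q (cv X Y Z τ.2.1)) (red Q (cv X Y Z τ.2.2)) = 0
            then (Zm : ℝ) ^ 2 else 0)
        + (if cr (red Q (cv X Y Z τ.1)) (red Q (cv X Y Z τ.2.1)) = 0 ∧
            cr (red Q (cv X Y Z τ.1)) (red Q (cv X Y Z τ.2.2)) = 0
          then Q * (Zm : ℝ) ^ 4 else 0)) := by
    intro τ
    by_cases hd : τ.1.1 ≠ τ.2.1.1 ∧ τ.1.1 ≠ τ.2.2.1 ∧ τ.2.1.1 ≠ τ.2.2.1
    · have : MQ Q (2 * P * Q) K (cv X Y Z τ.1) (cv X Y Z τ.2.1) (cv X Y Z τ.2.2) = ∅ := by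
        rw [eq_empty_iff_forall_notMem]
        intro t ht
        have hW := (mem_MQ.mp ht).1
        have := hsep _ _ _ hd.1 hd.2.1 hd.2.2 _ (WS_det hW)
        have := (mem_WS.mp hW).2.1
        omega
      rw [this]
      simp only [card_empty, Nat.cast_zero]
      positivity
    · rw [if_pos hd]
      convert card_MQ_le_all (P := P) hK hZ (hz1 τ.1.1) (habs τ.1) (habs τ.2.1) (habs τ.2.2)
  refine (sum_le_sum fun τ _ => hone τ).trans ?_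
  rw [← mul_sum]
  apply mul_le_mul_of_nonneg_left _ hT0
  simp only [sum_add_distrib, ← sum_filter, sum_const, nsmul_eq_mul]
  have c1 := card_ND_le (A := A) (E := E)
  have c2 := card_D0_le hE X Y Z hZq
  have c3 := card_R1_le hE X Y Z hZq
  have c2' := Nat.mul_le_mul_right (Zm ^ 2) c2
  have c3' := Nat.mul_le_mul_right (Q * Zm ^ 4) c3
  have d2 : 2 * (Fintype.card A ^ 3 * E ^ 5) * Zm ^ 2 ≤ 2 * (Fintype.card A ^ 2 * E ^ 6) := by
    calc _ = 2 * (Fintype.card A ^ 2 * E ^ 5) * (Zm ^ 2 * Fintype.card A) := by ring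
      _ ≤ 2 * (Fintype.card A ^ 2 * E ^ 5) * E := Nat.mul_le_mul_left _ h1
      _ = _ := by ring
  have d3' : Fintype.card A ^ 3 * E ^ 2 * (Q * Zm ^ 4) ≤ Fintype.card A ^ 2 * E ^ 6 := by
    calc _ = Fintype.card A ^ 2 * E ^ 2 * (Q * Zm ^ 4 * Fintype.card A) := by ring
      _ ≤ Fintype.card A ^ 2 * E ^ 2 * E ^ 4 := Nat.mul_le_mul_left _ h2
      _ = _ := by ring
  have := Nat.add_le_add (Nat.add_le_add c1 (c2'.trans d2)) (c3'.trans d3')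
  have h6 : 3 * (Fintype.card A ^ 2 * E ^ 6) + 2 * (Fintype.card A ^ 2 * E ^ 6) +
    Fintype.card A ^ 2 * E ^ 6 = 6 * (Fintype.card A ^ 2 * E ^ 6) := by ring
  rw [h6] at this
  rw [mul_one]
  exact_mod_cast this

end Crest.Agent.R32
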