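import Crest.Agent.R32.Vec

set_option autoImplicit false

namespace Crest.Agent.R32

open Finset

/-- integer points of a box in the plane orthogonal to `η` -/
noncomputable def perp (η : V ℤ) (R : ℕ) : Finset (V ℤ) := (box R).filter fun x => dt η x = 0

lemma mem_perp {η x : V ℤ} {R : ℕ} : x ∈ perp η R ↔ nrm x ≤ R ∧ dt η x = 0 := by
  rw [perp, mem_filter, mem_box]

lemma cr_eq_mul {u₀ η a x : V ℤ} (h : dt u₀ η = 1) (ha : dt η a = 0) (hx : dt η x = 0)
    (i : Fin 3) : cr a x i = dt u₀ (cr a x) * η i := by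
  unfold dt at *
  fin_cases i
  · show cr a x 0 = _ * η 0
    simp only [cr_0, cr_1, cr_2]
    linear_combination (-(a 1 * x 2 - a 2 * x 1)) * h + (u₀ 1 * x 2 - u₀ 2 * x 1) * ha
      + (u₀ 2 * a 1 - u₀ 1 * a 2) * hx
  · show cr a x 1 = _ * η 1
    simp only [cr_0, cr_1, cr_2]
    linear_combination (-(a 2 * x 0 - a 0 * x 2)) * h + (u₀ 2 * x 0 - u₀ 0 * x 2) * ha
      + (u₀ 0 * a 2 - u₀ 2 * a 0) * hx
  · show cr a x 2 = _ * η 2
    simp only [cr_0, cr_1, cr_2]
    linear_combination (-(a 0 * x 1 - a 1 * x 0)) * h + (u₀ 0 * x 1 - u₀ 1 * x 0) * ha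
      + (u₀ 1 * a 0 - u₀ 0 * a 1) * hx

lemma par_of_cr {R : Type} [CommRing R] {a u : V R} (h : cr a u = 0) (i k : Fin 3) :
    a i * u k = a k * u i := by
  rw [vext0] at h
  obtain ⟨h0, h1, h2⟩ := h
  simp only [cr_0, cr_1, cr_2] at h0 h1 h2
  fin_cases i <;> fin_cases k <;> simp <;>
    first
    | linear_combination h0
    | linear_combination -h0
    | linear_combination h1
    | linear_combination -h1
    | linear_combination h2
    | linear_combination -h2

lemma cr_eq_zero_of_par {R : Type} [CommRing R] [IsDomain R] {a u v : V R} {j : Fin 3}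
    (hj : a j ≠ 0) (hu : cr a u = 0) (hv : cr a v = 0) : cr u v = 0 := by
  have h1 := par_of_cr hu j
  have h2 := par_of_cr hv j
  have key : ∀ i k : Fin 3, u i * v k - u k * v i = 0 := by
    intro i k
    have : a j * a j * (u i * v k - u k * v i) = 0 := by
      linear_combination (a j * v k) * h1 i + (a i * u j) * h2 k - (a j * v i) * h1 k
        - (a k * u j) * h2 i
    exact (mul_eq_zero.mp this).resolve_left (mul_ne_zero hj hj)
  rw [vext0]
  exact ⟨key 1 2, key 2 0, key 0 1⟩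

/-- Lemma A -/
lemma card_perp_le {η u v : V ℤ} {R : ℕ} (hη : Prim η) (hu : u ∈ perp η R) (hv : v ∈ perp η R)
    (huv : cr u v ≠ 0) : ((perp η R).card : ℝ) ≤ 18 * (R : ℝ) ^ 2 / nrm η := by
  have hu0 : u ≠ 0 := by
    rintro rfl
    apply huv
    rw [vext0]; simp
  obtain ⟨a, ha, hmin⟩ := exists_min_image ((perp η R).filter (· ≠ 0)) nrm
    ⟨u, mem_filter.mpr ⟨hu, hu0⟩⟩
  rw [mem_filter, mem_perp] at ha
  obtain ⟨⟨haR, haη⟩, ha0⟩ := ha
  obtain ⟨j, hj⟩ := exists_abs_eq_nrm a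
  obtain ⟨k, hk⟩ := exists_abs_eq_nrm η
  have hl : 1 ≤ nrm a := nrm_pos ha0
  have hN : 1 ≤ nrm η := nrm_pos hη.ne_zero
  obtain ⟨u₀, hu₀⟩ := hη
  obtain ⟨l, hl'⟩ : ∃ l : ℤ, l = (nrm a : ℤ) := ⟨_, rfl⟩
  obtain ⟨N, hN'⟩ : ∃ N : ℤ, N = (nrm η : ℤ) := ⟨_, rfl⟩
  rw [← hl'] at hj
  rw [← hN'] at hk
  have hl0 : 0 < l := by omega
  have hN0 : 0 < N := by omega
  have hlR : l ≤ R := by omega
  have haj : a j ≠ 0 := by
    intro h; rw [h] at hj; simp at hj; omega
  have hb : ∀ x ∈ perp η R, |dt u₀ (cr a x) * N| ≤ 2 * l * R := by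
    intro x hx
    rw [mem_perp] at hx
    have h1 := abs_le_nrm (cr a x) k
    have h2 : nrm (cr a x) ≤ 2 * nrm a * R := nrm_cr_le le_rfl hx.1
    rw [cr_eq_mul hu₀ haη hx.2 k, abs_mul, hk] at h1
    rw [abs_mul, abs_of_pos hN0]
    have h3 : (nrm (cr a x) : ℤ) ≤ 2 * l * R := by rw [hl']; exact_mod_cast h2
    linarith
  have hNle : N ≤ 2 * l * R := by
    have : ∃ x ∈ perp η R, cr a x ≠ 0 := by
      by_contra hc
      push Not at hc
      exact huv (cr_eq_zero_of_par haj (hc u hu) (hc v hv))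
    obtain ⟨x, hx, hx0⟩ := this
    have h1 := hb x hx
    have h2 : dt u₀ (cr a x) ≠ 0 := by
      intro h
      apply hx0
      funext i
      rw [cr_eq_mul hu₀ haη (mem_perp.mp hx).2 i, h]; simp
    rw [abs_mul, abs_of_pos hN0] at h1
    have := Int.one_le_abs h2
    nlinarith
  have hinj : (perp η R).card ≤
      (Icc (0 : ℤ) (2 * (2 * l * R) / N) ×ˢ Icc (0 : ℤ) (2 * (R : ℤ) / l)).card := by
    apply card_le_card_of_injOn
      (fun x => ((dt u₀ (cr a x) * N + 2 * l * R) / N, (x j + R) / l))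
    · intro x hx
      have hx' : x ∈ perp η R := hx
      simp only [coe_product, Set.mem_prod, mem_coe]
      exact ⟨div_mem_Icc hN0 (hb x hx'),
        div_mem_Icc hl0 (nrm_le_iff.mp (mem_perp.mp hx').1 j)⟩
    · intro x hx y hy hxy
      have hx' := mem_perp.mp hx
      have hy' := mem_perp.mp hy
      simp only [Prod.mk.injEq] at hxy
      have h1 := abs_sub_lt_of_div_eq hN0 hxy.1
      have h2 := abs_sub_lt_of_div_eq hl0 hxy.2
      have h3 : dt u₀ (cr a x) = dt u₀ (cr a y) := by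
        by_contra hne
        have := Int.one_le_abs (sub_ne_zero.mpr hne)
        rw [← sub_mul, abs_mul, abs_of_pos hN0] at h1
        nlinarith
      have h4 : cr a (x - y) = 0 := by
        funext i
        have e1 := cr_eq_mul hu₀ haη hx'.2 i
        have e2 := cr_eq_mul hu₀ haη hy'.2 i
        rw [h3] at e1
        have e3 : cr a (x - y) i = cr a x i - cr a y i := by
          fin_cases i <;> simp <;> ring
        rw [e3, e1, e2]; simp
      by_contra hne
      have h5 : ∀ i, |(x - y) i| ≤ l - 1 := by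
        intro i
        have e1 := par_of_cr h4 j i
        have e2 : |a j| * |(x - y) i| = |a i| * |(x - y) j| := by
          rw [← abs_mul, ← abs_mul, e1]
        have e3 : |a i| ≤ l := hl' ▸ abs_le_nrm a i
        have e4 : |(x - y) j| < l := h2
        rw [hj] at e2
        have e5 : l * |(x - y) i| ≤ l * |(x - y) j| := by
          rw [e2]; exact mul_le_mul_of_nonneg_right e3 (abs_nonneg _)
        have e6 := le_of_mul_le_mul_left e5 hl0
        omega
      have h6 : nrm (x - y) ≤ nrm a - 1 := by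
        rw [nrm_le_iff]
        intro i
        have := h5 i
        omega
      have h7 : x - y ∈ (perp η R).filter (· ≠ 0) := by
        rw [mem_filter, mem_perp]
        refine ⟨⟨by omega, ?_⟩, sub_ne_zero.mpr hne⟩
        have e1 := hx'.2
        have e2 := hy'.2
        unfold dt at *
        simp only [Pi.sub_apply]
        linear_combination e1 - e2
      have := hmin _ h7
      omega
  rw [card_product] at hinj
  have hR0 : (0 : ℤ) ≤ R := by omega
  have c1 := card_Icc_div_le (R := 2 * l * R) hN0 (by positivity)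
  have c2 := card_Icc_div_le (R := R) hl0 hR0
  have hl1 : (0 : ℝ) < l := by exact_mod_cast hl0
  have hN1 : (0 : ℝ) < N := by exact_mod_cast hN0
  have hNle' : (N : ℝ) ≤ 2 * l * R := by exact_mod_cast hNle
  have hlR' : (l : ℝ) ≤ R := by exact_mod_cast hlR
  have c1' : ((Icc (0 : ℤ) (2 * (2 * l * R) / N)).card : ℝ) ≤ 6 * l * R / N := by
    refine c1.trans ?_
    push_cast
    rw [div_add_one hN1.ne', div_le_div_iff_of_pos_right hN1]
    linarith
  have c2' : ((Icc (0 : ℤ) (2 * (R : ℤ) / l)).card : ℝ) ≤ 3 * R / l := by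
    refine c2.trans ?_
    push_cast
    rw [div_add_one hl1.ne', div_le_div_iff_of_pos_right hl1]
    linarith
  have hN2 : (N : ℝ) = nrm η := by rw [hN']; simp
  calc ((perp η R).card : ℝ)
      ≤ ((Icc (0 : ℤ) (2 * (2 * l * R) / N)).card : ℝ)
        * ((Icc (0 : ℤ) (2 * (R : ℤ) / l)).card : ℝ) := by exact_mod_cast hinj
    _ ≤ (6 * l * R / N) * (3 * R / l) :=
        mul_le_mul c1' c2' (by positivity) (by positivity)
    _ = 18 * (R : ℝ) ^ 2 / nrm η := by
        rw [← hN2]; field_simp; ring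

/-- Lemma C (dyadic summation) -/
lemma dyadic (Y : Finset (V ℤ)) (M : ℕ) (κ : ℝ) (h0 : ∀ y ∈ Y, 1 ≤ nrm y)
    (hM : ∀ y ∈ Y, nrm y ≤ M)
    (hc : ∀ k : ℕ, ((Y.filter fun y => Nat.log 2 (nrm y) = k).card : ℝ) ≤ κ * 8 ^ k) :
    ∑ y ∈ Y, 1 / (nrm y : ℝ) ^ 3 ≤ κ * (Nat.log 2 M + 1) := by
  rw [← sum_fiberwise_of_maps_to (t := range (Nat.log 2 M + 1)) (g := fun y => Nat.log 2 (nrm y))]
  · have : ∀ k ∈ range (Nat.log 2 M + 1),
        ∑ y ∈ Y with Nat.log 2 (nrm y) = k, 1 / (nrm y : ℝ) ^ 3 ≤ κ := by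
      intro k _
      have h1 : ∀ y ∈ Y.filter fun y => Nat.log 2 (nrm y) = k,
          1 / (nrm y : ℝ) ^ 3 ≤ 1 / 8 ^ k := by
        intro y hy
        rw [mem_filter] at hy
        have h2 : 2 ^ k ≤ nrm y := by
          rw [← hy.2]; exact Nat.pow_log_le_self 2 (by have := h0 y hy.1; omega)
        have h3 : (2 : ℝ) ^ k ≤ nrm y := by exact_mod_cast h2
        apply one_div_le_one_div_of_le (by positivity)
        calc (8 : ℝ) ^ k = (2 ^ k) ^ 3 := by rw [← pow_mul, mul_comm, pow_mul]; norm_num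
          _ ≤ _ := pow_le_pow_left₀ (by positivity) h3 3
      refine (sum_le_card_nsmul _ _ _ h1).trans ?_
      rw [nsmul_eq_mul, mul_one_div, div_le_iff₀ (by positivity)]
      exact hc k
    refine (sum_le_card_nsmul _ _ _ this).trans ?_
    rw [card_range, nsmul_eq_mul]
    push_cast
    rw [mul_comm]
  · intro y hy
    rw [mem_range, Nat.lt_succ_iff]
    exact Nat.log_mono_right (hM y hy)

lemma dyadic_all (Y : Finset (V ℤ)) (M : ℕ) (h0 : ∀ y ∈ Y, 1 ≤ nrm y)
    (hM : ∀ y ∈ Y, nrm y ≤ M) :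
    ∑ y ∈ Y, 1 / (nrm y : ℝ) ^ 3 ≤ 64 * ((Nat.log 2 M : ℝ) + 1) := by
  apply dyadic Y M 64 h0 hM
  intro k
  have h1 : (Y.filter fun y => Nat.log 2 (nrm y) = k) ⊆ box (2 ^ (k + 1) - 1) := by
    intro y hy
    rw [mem_filter] at hy
    rw [mem_box]
    have := Nat.lt_pow_succ_log_self (b := 2) (by norm_num) (nrm y)
    rw [hy.2] at this
    exact Nat.le_sub_one_of_lt this
  have h2 := card_le_card h1
  rw [card_box] at h2
  have h3 : 2 * (2 ^ (k + 1) - 1) + 1 ≤ 4 * 2 ^ k := by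
    have : 0 < 2 ^ k := by positivity
    rw [pow_succ]; omega
  have h4 : (2 * (2 ^ (k + 1) - 1) + 1) ^ 3 ≤ 64 * 8 ^ k := by
    calc _ ≤ (4 * 2 ^ k) ^ 3 := Nat.pow_le_pow_left h3 3
      _ = 64 * 8 ^ k := by rw [mul_pow, ← pow_mul, mul_comm k 3, pow_mul]; norm_num
  exact_mod_cast h2.trans h4

/-- triples with independent first two vectors and prescribed determinant -/
noncomputable def trip (R₁ R₂ : ℕ) (D : ℤ) : Finset (V ℤ × V ℤ × V ℤ) :=
  (box R₁ ×ˢ box R₁ ×ˢ box R₂).filter fun t => cr t.1 t.2.1 ≠ 0 ∧ d3 t.1 t.2.1 t.2.2 = D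

lemma mem_trip {R₁ R₂ : ℕ} {D : ℤ} {t : V ℤ × V ℤ × V ℤ} : t ∈ trip R₁ R₂ D ↔
    (nrm t.1 ≤ R₁ ∧ nrm t.2.1 ≤ R₁ ∧ nrm t.2.2 ≤ R₂) ∧
      cr t.1 t.2.1 ≠ 0 ∧ d3 t.1 t.2.1 t.2.2 = D := by
  rw [trip, mem_filter, mem_product, mem_product, mem_box, mem_box, mem_box]

/-- the primitive normal of the plane spanned by two vectors -/
lemma exists_normal {u v : V ℤ} (h : cr u v ≠ 0) :
    ∃ η : V ℤ, Prim η ∧ nrm η ≤ nrm (cr u v) ∧ dt η u = 0 ∧ dt η v = 0 ∧
      ∀ w, d3 u v w = 0 → dt η w = 0 := by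
  obtain ⟨g, η, hg, hη, he, hn⟩ := exists_prim h
  have key : ∀ w, d3 u v w = 0 → dt η w = 0 := by
    intro w hw
    apply mul_left_cancel₀ hg
    rw [d3_eq] at hw
    unfold dt at *
    rw [he 0, he 1, he 2] at hw
    linear_combination hw
  refine ⟨η, hη, hn, key u ?_, key v ?_, key⟩
  · unfold d3; ring
  · unfold d3; ring

open Classical in
/-- Lemma B -/
lemma card_trip_le {R₁ R₂ : ℕ} (h : R₁ ≤ 2 * R₂) (D : ℤ) :
    ((trip R₁ R₂ D).card : ℝ) ≤
      1492992 * (R₁ : ℝ) ^ 4 * (R₂ : ℝ) ^ 2 * (Nat.log 2 (2 * R₁ * R₁) + 1) := by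
  set Y := (box (2 * R₁ * R₁)).filter
    fun η => Prim η ∧ ∃ u ∈ perp η R₁, ∃ v ∈ perp η R₁, cr u v ≠ 0 with hY
  have hsub : trip R₁ R₂ D ⊆ Y.biUnion fun η =>
      (trip R₁ R₂ D).filter fun t => t.1 ∈ perp η R₁ ∧ t.2.1 ∈ perp η R₁ := by
    intro t ht
    have ht' := mem_trip.mp ht
    obtain ⟨η, h1, h2, h3, h4, -⟩ := exists_normal ht'.2.1
    have hu : t.1 ∈ perp η R₁ := mem_perp.mpr ⟨ht'.1.1, h3⟩
    have hv : t.2.1 ∈ perp η R₁ := mem_perp.mpr ⟨ht'.1.2.1, h4⟩
    rw [mem_biUnion]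
    refine ⟨η, ?_, mem_filter.mpr ⟨ht, hu, hv⟩⟩
    rw [hY, mem_filter, mem_box]
    exact ⟨h2.trans (nrm_cr_le ht'.1.1 ht'.1.2.1), h1, _, hu, _, hv, ht'.2.1⟩
  have hone : ∀ η ∈ Y, (((trip R₁ R₂ D).filter
      fun t => t.1 ∈ perp η R₁ ∧ t.2.1 ∈ perp η R₁).card : ℝ)
      ≤ 23328 * (R₁ : ℝ) ^ 4 * (R₂ : ℝ) ^ 2 * (1 / (nrm η : ℝ) ^ 3) := by
    intro η hη
    rw [hY, mem_filter] at hη
    obtain ⟨-, hp, u, hu, v, hv, huv⟩ := hη
    have c1 := card_perp_le hp hu hv huv
    have hmono : ∀ x ∈ perp η R₁, x ∈ perp η (2 * R₂) := fun x hx =>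
      mem_perp.mpr ⟨(mem_perp.mp hx).1.trans h, (mem_perp.mp hx).2⟩
    have c2 := card_perp_le hp (hmono u hu) (hmono v hv) huv
    obtain ⟨u₀, hu₀⟩ := hp
    have c3 : ((trip R₁ R₂ D).filter fun t => t.1 ∈ perp η R₁ ∧ t.2.1 ∈ perp η R₁).card
        ≤ (perp η (2 * R₂)).card * (perp η R₁ ×ˢ perp η R₁).card := by
      apply card_le_mul_card_image_of_maps_to (f := fun t => (t.1, t.2.1))
      · intro t ht
        exact mem_product.mpr (mem_filter.mp ht).2
      · intro b _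
        rcases (((trip R₁ R₂ D).filter fun t => t.1 ∈ perp η R₁ ∧ t.2.1 ∈ perp η R₁).filter
          fun t => (t.1, t.2.1) = b).eq_empty_or_nonempty with he | ⟨t₀, ht₀⟩
        · rw [he]; simp
        · rw [mem_filter, mem_filter, mem_trip] at ht₀
          apply card_le_card_of_injOn (fun t => t.2.2 - t₀.2.2)
          · intro t ht
            rw [mem_coe, mem_filter, mem_filter, mem_trip] at ht
            rw [mem_coe, mem_perp]
            obtain ⟨e1, e2⟩ := Prod.mk.inj (ht.2.trans ht₀.2.symm)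
            constructor
            · rw [nrm_le_iff]
              intro i
              have b1 := nrm_le_iff.mp ht.1.1.1.2.2 i
              have b2 := nrm_le_iff.mp ht₀.1.1.1.2.2 i
              have := abs_sub (t.2.2 i) (t₀.2.2 i)
              simp only [Pi.sub_apply]
              push_cast
              linarith
            · have f := cr_eq_mul hu₀ (mem_perp.mp ht₀.1.2.1).2 (mem_perp.mp ht₀.1.2.2).2
              have g0 : dt u₀ (cr t₀.1 t₀.2.1) ≠ 0 := by
                intro hz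
                apply ht₀.1.1.2.1
                funext i
                rw [f i, hz]; simp
              apply mul_left_cancel₀ g0
              have d1 := ht.1.1.2.2
              have d2 := ht₀.1.1.2.2
              rw [e1, e2, d3_eq] at d1
              rw [d3_eq] at d2
              generalize dt u₀ (cr t₀.1 t₀.2.1) = s at *
              unfold dt at *
              rw [f 0, f 1, f 2] at d1 d2
              simp only [Pi.sub_apply]
              linear_combination d1 - d2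
          · intro t ht t' ht' htt
            rw [mem_coe, mem_filter] at ht ht'
            have e := ht.2.trans ht'.2.symm
            simp only [Prod.mk.injEq] at e
            have e3 : t.2.2 = t'.2.2 := sub_left_injective htt
            exact Prod.ext e.1 (Prod.ext e.2 e3)
    rw [card_product] at c3
    have hN : (0 : ℝ) < nrm η := by
      have := nrm_pos (Prim.ne_zero ⟨u₀, hu₀⟩)
      exact_mod_cast this
    calc _ ≤ ((perp η (2 * R₂)).card : ℝ) * ((perp η R₁).card * (perp η R₁).card) := by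
          exact_mod_cast c3
      _ ≤ (18 * ((2 * R₂ : ℕ) : ℝ) ^ 2 / nrm η) *
            ((18 * (R₁ : ℝ) ^ 2 / nrm η) * (18 * (R₁ : ℝ) ^ 2 / nrm η)) := by
          gcongr
      _ = _ := by push_cast; field_simp; ring
  have hd := dyadic_all Y (2 * R₁ * R₁)
    (fun y hy => nrm_pos (mem_filter.mp hy).2.1.ne_zero)
    (fun y hy => mem_box.mp (mem_filter.mp hy).1)
  calc ((trip R₁ R₂ D).card : ℝ)
      ≤ ∑ η ∈ Y, (((trip R₁ R₂ D).filter
        fun t => t.1 ∈ perp η R₁ ∧ t.2.1 ∈ perp η R₁).card : ℝ) := by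
        exact_mod_cast (card_le_card hsub).trans card_biUnion_le
    _ ≤ ∑ η ∈ Y, 23328 * (R₁ : ℝ) ^ 4 * (R₂ : ℝ) ^ 2 * (1 / (nrm η : ℝ) ^ 3) := sum_le_sum hone
    _ = 23328 * (R₁ : ℝ) ^ 4 * (R₂ : ℝ) ^ 2 * ∑ η ∈ Y, (1 / (nrm η : ℝ) ^ 3) := by
        rw [mul_sum]
    _ ≤ 23328 * (R₁ : ℝ) ^ 4 * (R₂ : ℝ) ^ 2 * (64 * (Nat.log 2 (2 * R₁ * R₁) + 1)) := by
        gcongr
    _ = _ := by ring

end Crest.Agent.R32
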