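import Crest.Agent.R32.Lattice

set_option autoImplicit false

namespace Crest.Agent.R32

open Finset

variable {F : Type} [Field F]

lemma aniso {ε a b : F} (hε : ¬IsSquare ε) (h : a ^ 2 - ε * b ^ 2 = 0) : a = 0 ∧ b = 0 := by
  have hb : b = 0 := by
    by_contra hb
    apply hε
    refine ⟨a / b, ?_⟩
    field_simp
    linear_combination -h
  refine ⟨?_, hb⟩
  rw [hb] at h
  simpa using h

lemma pair_lemma {ε a₁ b₁ a₂ b₂ α β : F} (hε : ¬IsSquare ε) (h1 : ¬(a₁ = 0 ∧ b₁ = 0))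
    (h2 : ¬(a₂ = 0 ∧ b₂ = 0)) (h12 : ¬(a₁ = a₂ ∧ b₁ = b₂))
    (ea : α * a₁ + β * a₂ = 0) (eb : α * b₁ + β * b₂ = 0)
    (en : α * (a₁ ^ 2 - ε * b₁ ^ 2) + β * (a₂ ^ 2 - ε * b₂ ^ 2) = 0) : α = 0 ∧ β = 0 := by
  have n1 : a₁ ^ 2 - ε * b₁ ^ 2 ≠ 0 := fun h => h1 (aniso hε h)
  have n2 : a₂ ^ 2 - ε * b₂ ^ 2 ≠ 0 := fun h => h2 (aniso hε h)
  have key : β * (β + α) * (a₂ ^ 2 - ε * b₂ ^ 2) = 0 := by
    linear_combination α * en - (α * a₁ - β * a₂) * ea + ε * (α * b₁ - β * b₂) * eb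
  rcases mul_eq_zero.mp ((mul_eq_zero.mp key).resolve_right n2) with h | h
  · refine ⟨?_, h⟩
    rw [h] at en
    exact (mul_eq_zero.mp (by simpa using en)).resolve_right n1
  · have hα : α = 0 := by
      by_contra hα
      apply h12
      constructor
      · apply mul_left_cancel₀ hα
        linear_combination ea - a₂ * h
      · apply mul_left_cancel₀ hα
        linear_combination eb - b₂ * h
    exact ⟨hα, by simpa [hα] using h⟩

/-- points of an elliptic paraboloid -/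
def ut (ε : F) (x : Fˣ × F) : V F := ![(x.1 : F), x.2, (x.1 : F) ^ 2 - ε * x.2 ^ 2]

@[simp] lemma ut_0 (ε : F) (x : Fˣ × F) : ut ε x 0 = x.1 := rfl
@[simp] lemma ut_1 (ε : F) (x : Fˣ × F) : ut ε x 1 = x.2 := rfl
@[simp] lemma ut_2 (ε : F) (x : Fˣ × F) : ut ε x 2 = (x.1 : F) ^ 2 - ε * x.2 ^ 2 := rfl

lemma ne_coords {x y : Fˣ × F} (h : x ≠ y) : ¬((x.1 : F) = y.1 ∧ x.2 = y.2) := by
  rintro ⟨h1, h2⟩
  exact h (Prod.ext (Units.ext h1) h2)

lemma ut_pair {ε α β : F} (hε : ¬IsSquare ε) {x y : Fˣ × F} (h : x ≠ y)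
    (e : ∀ i, α * ut ε x i + β * ut ε y i = 0) : α = 0 ∧ β = 0 :=
  pair_lemma hε (fun h => x.1.ne_zero h.1) (fun h => y.1.ne_zero h.1) (ne_coords h)
    (e 0) (e 1) (e 2)

lemma ut_cap {ε α β γ : F} (hε : ¬IsSquare ε) {x y z : Fˣ × F} (hxy : x ≠ y) (hxz : x ≠ z)
    (hyz : y ≠ z) (hs : α + β + γ = 0)
    (e : ∀ i, α * ut ε x i + β * ut ε y i + γ * ut ε z i = 0) : α = 0 ∧ β = 0 ∧ γ = 0 := by
  have e0 := e 0
  have e1 := e 1
  have e2 := e 2
  simp only [ut_0, ut_1, ut_2] at e0 e1 e2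
  have := pair_lemma (a₁ := (x.1 : F) - z.1) (b₁ := x.2 - z.2) (a₂ := (y.1 : F) - z.1)
    (b₂ := y.2 - z.2)
    (α := α) (β := β) hε
    (fun h => ne_coords hxz ⟨sub_eq_zero.mp h.1, sub_eq_zero.mp h.2⟩)
    (fun h => ne_coords hyz ⟨sub_eq_zero.mp h.1, sub_eq_zero.mp h.2⟩)
    (fun h => ne_coords hxy ⟨sub_left_injective h.1, sub_left_injective h.2⟩)
    (by linear_combination e0 - z.1 * hs) (by linear_combination e1 - z.2 * hs)
    (by linear_combination e2 - 2 * z.1 * e0 + 2 * ε * z.2 * e1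
      + ((z.1 : F) ^ 2 - ε * z.2 ^ 2) * hs)
  refine ⟨this.1, this.2, ?_⟩
  rw [this.1, this.2] at hs
  simpa using hs

lemma exists_rel_of_d3 {a b c : V F} (h : d3 a b c = 0) :
    ∃ y : V F, y ≠ 0 ∧ ∀ i, y 0 * a i + y 1 * b i + y 2 * c i = 0 := by
  classical
  have hd : (Matrix.of fun i j => (![a, b, c] : Fin 3 → V F) j i).det = 0 := by
    rw [← h, Matrix.det_fin_three]
    simp [d3]
    ring
  obtain ⟨y, hy, e⟩ := Matrix.exists_mulVec_eq_zero_iff.mpr hd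
  refine ⟨y, hy, fun i => ?_⟩
  have := congrFun e i
  rw [mulVec_0] at this
  simp at this
  linear_combination this

lemma card_quad_le [DecidableEq F] [Fintype F] {A B C : F} (hB : B ≠ 0) :
    (univ.filter fun s : F => A * s ^ 2 + B * s + C = 0).card ≤ 2 := by
  by_contra hc
  push Not at hc
  obtain ⟨a, ha, b, hb, c, hc, hab, hac, hbc⟩ := two_lt_card.mp hc
  rw [mem_filter] at ha hb hc
  have h1 : A * (a + b) + B = 0 := by
    apply mul_left_cancel₀ (sub_ne_zero.mpr hab)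
    linear_combination ha.2 - hb.2
  have h2 : A * (a + c) + B = 0 := by
    apply mul_left_cancel₀ (sub_ne_zero.mpr hac)
    linear_combination ha.2 - hc.2
  have h3 : A = 0 := by
    apply mul_left_cancel₀ (sub_ne_zero.mpr hbc)
    linear_combination h1 - h2
  apply hB
  rw [h3] at h1
  simpa using h1

lemma card_X_le [DecidableEq F] [Fintype F] : Fintype.card (Fˣ × F) ≤ Fintype.card F ^ 2 := by
  rw [Fintype.card_prod, sq]
  exact Nat.mul_le_mul_right _ (Fintype.card_le_of_injective _ Units.val_injective)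

open Classical in
lemma card_rel_le [Fintype F] {ε α β γ : F} (h2 : (2 : F) ≠ 0) (hα : α ≠ 0) (hβ : β ≠ 0)
    (hγ : γ ≠ 0) :
    (univ.filter fun x : (Fˣ × F) × (Fˣ × F) × (Fˣ × F) =>
      ∀ i, α * ut ε x.1 i + β * ut ε x.2.1 i + γ * ut ε x.2.2 i = 0).card
      ≤ 2 * Fintype.card F ^ 3 := by
  have h1 : (univ : Finset ((Fˣ × F) × F)).card ≤ Fintype.card F ^ 3 := by
    rw [card_univ, Fintype.card_prod, pow_succ]
    exact Nat.mul_le_mul_right _ card_X_le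
  refine le_trans ?_ (Nat.mul_le_mul_left 2 h1)
  apply card_le_mul_card_image_of_maps_to (f := fun x => (x.2.1, x.1.2))
  · intro x _; exact mem_univ _
  · rintro ⟨⟨a₂, b₂⟩, b₁⟩ -
    refine le_trans ?_ (card_quad_le (A := γ * α + α ^ 2) (B := 2 * α * β * a₂)
      (C := -γ * α * ε * b₁ ^ 2 + γ * β * ((a₂ : F) ^ 2 - ε * b₂ ^ 2) + β ^ 2 * (a₂ : F) ^ 2
        - ε * (α * b₁ + β * b₂) ^ 2)
      (mul_ne_zero (mul_ne_zero (mul_ne_zero h2 hα) hβ) a₂.ne_zero))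
    apply card_le_card_of_injOn (fun x => (x.1.1 : F))
    · rintro ⟨⟨s, b⟩, y, ⟨a₃, b₃⟩⟩ hx
      rw [mem_coe, mem_filter, mem_filter] at hx
      obtain ⟨⟨-, e⟩, he⟩ := hx
      simp only [Prod.mk.injEq] at he
      obtain ⟨rfl, rfl⟩ := he
      have e0 := e 0
      have e1 := e 1
      have e2 := e 2
      simp only [ut_0, ut_1, ut_2] at e0 e1 e2
      rw [mem_coe, mem_filter]
      refine ⟨mem_univ _, ?_⟩
      show (γ * α + α ^ 2) * (s : F) ^ 2 + _ * (s : F) + _ = 0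
      linear_combination γ * e2 + (α * s + β * a₂ - γ * a₃) * e0
        - ε * (α * b + β * b₂ - γ * b₃) * e1
    · rintro ⟨⟨s, b⟩, y, ⟨a₃, b₃⟩⟩ hx ⟨⟨s', b'⟩, y', ⟨a₃', b₃'⟩⟩ hx' hs
      rw [mem_coe, mem_filter, mem_filter] at hx hx'
      obtain ⟨⟨-, e⟩, he⟩ := hx
      obtain ⟨⟨-, e'⟩, he'⟩ := hx'
      simp only [Prod.mk.injEq] at he he' hs
      obtain ⟨rfl, rfl⟩ := he
      obtain ⟨rfl, rfl⟩ := he'
      have hs' : s = s' := Units.ext hs
      subst hs'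
      have e0 := e 0
      have e1 := e 1
      have f0 := e' 0
      have f1 := e' 1
      simp only [ut_0, ut_1] at e0 e1 f0 f1
      have g0 : a₃ = a₃' := by
        apply Units.ext
        apply mul_left_cancel₀ hγ
        linear_combination e0 - f0
      have g1 : b₃ = b₃' := by
        apply mul_left_cancel₀ hγ
        linear_combination e1 - f1
      rw [g0, g1]

/-- scaled paraboloid point -/
def vz (ε z : F) (x : Fˣ × F) : V F := fun i => z * ut ε x i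

lemma cr_vz_ne {ε z z' : F} (hε : ¬IsSquare ε) (hz : z ≠ 0) (hz' : z' ≠ 0) {x y : Fˣ × F}
    (h : x ≠ y) : cr (vz ε z x) (vz ε z' y) ≠ 0 := by
  intro hc
  have h1 := par_of_cr hc 0
  have := ut_pair (α := z * (z' * y.1)) (β := -(z * x.1 * z')) hε h (by
    intro i
    have := h1 i
    simp only [vz, ut_0] at this
    linear_combination -this)
  exact mul_ne_zero hz (mul_ne_zero hz' y.1.ne_zero) this.1

open Classical in
/-- the configurations modulo `P` over a given triple of vectors -/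
noncomputable def BP [Fintype F] (ε z₁ z₂ z₃ : F) (w₁ w₂ w₃ : V F) :
    Finset (Matrix (Fin 3) (Fin 3) F × (Fˣ × F) × (Fˣ × F) × (Fˣ × F)) :=
  univ.filter fun t => t.1.det ≠ 0 ∧ (t.2.1 ≠ t.2.2.1 ∧ t.2.1 ≠ t.2.2.2 ∧ t.2.2.1 ≠ t.2.2.2) ∧
    t.1.mulVec (vz ε z₁ t.2.1) = w₁ ∧ t.1.mulVec (vz ε z₂ t.2.2.1) = w₂ ∧
    t.1.mulVec (vz ε z₃ t.2.2.2) = w₃

lemma mem_BP [Fintype F] {ε z₁ z₂ z₃ : F} {w₁ w₂ w₃ : V F}
    {t : Matrix (Fin 3) (Fin 3) F × (Fˣ × F) × (Fˣ × F) × (Fˣ × F)} :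
    t ∈ BP ε z₁ z₂ z₃ w₁ w₂ w₃ ↔
    t.1.det ≠ 0 ∧ (t.2.1 ≠ t.2.2.1 ∧ t.2.1 ≠ t.2.2.2 ∧ t.2.2.1 ≠ t.2.2.2) ∧
    t.1.mulVec (vz ε z₁ t.2.1) = w₁ ∧ t.1.mulVec (vz ε z₂ t.2.2.1) = w₂ ∧
    t.1.mulVec (vz ε z₃ t.2.2.2) = w₃ := by
  unfold BP
  simp only [mem_filter, mem_univ, true_and]

/-- a relation between the images pulls back -/
lemma rel_pull {U : Matrix (Fin 3) (Fin 3) F} (hU : U.det ≠ 0) {a b c : V F} {α β γ : F}
    (e : ∀ i, α * U.mulVec a i + β * U.mulVec b i + γ * U.mulVec c i = 0) (i : Fin 3) :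
    α * a i + β * b i + γ * c i = 0 := by
  have h : U.mulVec (fun i => α * a i + β * b i + γ * c i) = 0 := by
    funext k
    have := e k
    simp only [mulVec_0] at this ⊢
    simp only [Pi.zero_apply]
    linear_combination this
  exact congrFun (Matrix.eq_zero_of_mulVec_eq_zero hU h) i

lemma BP_rel [Fintype F] {ε z₁ z₂ z₃ : F} {w₁ w₂ w₃ : V F}
    {t : Matrix (Fin 3) (Fin 3) F × (Fˣ × F) × (Fˣ × F) × (Fˣ × F)}
    (ht : t ∈ BP ε z₁ z₂ z₃ w₁ w₂ w₃) {α β γ : F}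
    (e : ∀ i, α * w₁ i + β * w₂ i + γ * w₃ i = 0) (i : Fin 3) :
    α * z₁ * ut ε t.2.1 i + β * z₂ * ut ε t.2.2.1 i + γ * z₃ * ut ε t.2.2.2 i = 0 := by
  obtain ⟨hU, -, e1, e2, e3⟩ := mem_BP.mp ht
  rw [← e1, ← e2, ← e3] at e
  have := rel_pull hU e i
  simp only [vz] at this
  linear_combination this

lemma card_BP_le [Fintype F] {ε z₁ z₂ z₃ : F} (hε : ¬IsSquare ε) (h2 : (2 : F) ≠ 0)
    (hz₁ : z₁ ≠ 0) (hz₂ : z₂ ≠ 0) (hz₃ : z₃ ≠ 0) (w₁ w₂ w₃ : V F) :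
    (BP ε z₁ z₂ z₃ w₁ w₂ w₃).card ≤ 2 * Fintype.card F ^ 6 := by
  classical
  by_cases hd : d3 w₁ w₂ w₃ = 0
  · rcases (BP ε z₁ z₂ z₃ w₁ w₂ w₃).eq_empty_or_nonempty with he | ⟨t₀, ht₀⟩
    · rw [he]; simp
    obtain ⟨y, hy, e⟩ := exists_rel_of_d3 hd
    have r₀ := BP_rel ht₀ e
    obtain ⟨-, ⟨n12, n13, n23⟩, -⟩ := mem_BP.mp ht₀
    have hy0 : ¬(y 0 * z₁ = 0 ∧ y 1 * z₂ = 0 ∧ y 2 * z₃ = 0) := by
      rintro ⟨a, b, c⟩
      apply hy
      rw [vext0]
      exact ⟨(mul_eq_zero.mp a).resolve_right hz₁, (mul_eq_zero.mp b).resolve_right hz₂,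
        (mul_eq_zero.mp c).resolve_right hz₃⟩
    have hα : y 0 * z₁ ≠ 0 := by
      intro h
      have := ut_pair (α := y 1 * z₂) (β := y 2 * z₃) hε n23 (fun i => by
        have := r₀ i
        rw [h] at this
        linear_combination this)
      exact hy0 ⟨h, this.1, this.2⟩
    have hβ : y 1 * z₂ ≠ 0 := by
      intro h
      have := ut_pair (α := y 0 * z₁) (β := y 2 * z₃) hε n13 (fun i => by
        have := r₀ i
        rw [h] at this
        linear_combination this)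
      exact hy0 ⟨this.1, h, this.2⟩
    have hγ : y 2 * z₃ ≠ 0 := by
      intro h
      have := ut_pair (α := y 0 * z₁) (β := y 1 * z₂) hε n12 (fun i => by
        have := r₀ i
        rw [h] at this
        linear_combination this)
      exact hy0 ⟨this.1, this.2, h⟩
    have c1 := card_rel_le (ε := ε) h2 hα hβ hγ
    calc _ ≤ Fintype.card F ^ 3 * _ := ?_
      _ ≤ Fintype.card F ^ 3 * (2 * Fintype.card F ^ 3) := Nat.mul_le_mul_left _ c1
      _ = _ := by ring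
    apply card_le_mul_card_image_of_maps_to (f := fun t => t.2)
    · intro t ht
      rw [mem_filter]
      exact ⟨mem_univ _, BP_rel ht e⟩
    · intro x _
      rcases ((BP ε z₁ z₂ z₃ w₁ w₂ w₃).filter fun t => t.2 = x).eq_empty_or_nonempty
        with he | ⟨t₁, ht₁⟩
      · rw [he]; simp
      rw [mem_filter] at ht₁
      obtain ⟨-, ⟨m12, -, -⟩, -⟩ := mem_BP.mp ht₁.1
      rw [ht₁.2] at m12
      obtain ⟨c, hc⟩ := exists_d3_ne (cr_vz_ne hε hz₁ hz₂ m12)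
      have : Fintype.card F ^ 3 = (univ : Finset (V F)).card := by simp
      rw [this]
      apply card_le_card_of_injOn (fun t => t.1.mulVec c)
      · intro t _; exact mem_coe.mpr (mem_univ _)
      · intro t ht t' ht' htt
        rw [mem_coe, mem_filter] at ht ht'
        obtain ⟨-, -, e1, e2, -⟩ := mem_BP.mp ht.1
        obtain ⟨-, -, f1, f2, -⟩ := mem_BP.mp ht'.1
        rw [ht.2] at e1 e2
        rw [ht'.2] at f1 f2
        exact Prod.ext (mat_ext_of_d3 hc (e1.trans f1.symm) (e2.trans f2.symm) htt)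
          (ht.2.trans ht'.2.symm)
  · have c1 : (univ : Finset ((Fˣ × F) × (Fˣ × F) × (Fˣ × F))).card ≤ 2 * Fintype.card F ^ 6 := by
      rw [card_univ, Fintype.card_prod (Fˣ × F), Fintype.card_prod (Fˣ × F)]
      have := card_X_le (F := F)
      calc _ ≤ Fintype.card F ^ 2 * (Fintype.card F ^ 2 * Fintype.card F ^ 2) := by gcongr
        _ = Fintype.card F ^ 6 := by ring
        _ ≤ _ := by omega
    refine le_trans ?_ c1
    apply card_le_card_of_injOn (fun t => t.2)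
    · intro t _; exact mem_coe.mpr (mem_univ _)
    · intro t ht t' ht' htt
      obtain ⟨-, -, e1, e2, e3⟩ := mem_BP.mp ht
      obtain ⟨-, -, f1, f2, f3⟩ := mem_BP.mp ht'
      have htt' : t.2 = t'.2 := htt
      rw [← htt'] at f1 f2 f3
      have hd' : d3 (vz ε z₁ t.2.1) (vz ε z₂ t.2.2.1) (vz ε z₃ t.2.2.2) ≠ 0 := by
        intro h
        apply hd
        rw [← e1, ← e2, ← e3, d3_mulVec, h, mul_zero]
      exact Prod.ext (mat_ext_of_d3 hd' (e1.trans f1.symm) (e2.trans f2.symm)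
        (e3.trans f3.symm)) htt'

end Crest.Agent.R32
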