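import Crest.Agent.R32.ModP

set_option autoImplicit false

namespace Crest.Agent.R32

open Finset

variable {F : Type} [Field F] [Fintype F]

open Classical in
/-- Lemma D -/
lemma card_plane_le (ξ : V F) {δ : F} (hδ : δ ≠ 0) :
    (univ.filter fun v : V F => dt ξ v = δ).card ≤ Fintype.card F ^ 2 := by
  have hc : Fintype.card F ^ 2 = (univ : Finset (F × F)).card := by simp [sq]
  rw [hc]
  by_cases h0 : ξ 0 = 0
  · by_cases h1 : ξ 1 = 0
    · by_cases h2 : ξ 2 = 0
      · have : (univ.filter fun v : V F => dt ξ v = δ) = ∅ := by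
          rw [filter_eq_empty_iff]
          intro v _ hv
          apply hδ
          rw [← hv, dt, h0, h1, h2]; ring
        rw [this]; simp
      · apply card_le_card_of_injOn (fun v => (v 0, v 1))
        · intro v _; exact mem_coe.mpr (mem_univ _)
        · intro v hv v' hv' h
          rw [mem_coe, mem_filter] at hv hv'
          obtain ⟨e0, e1⟩ := Prod.mk.inj h
          have e := hv.2.trans hv'.2.symm
          unfold dt at e
          rw [vext]
          refine ⟨e0, e1, mul_left_cancel₀ h2 ?_⟩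
          linear_combination e - ξ 0 * e0 - ξ 1 * e1
    · apply card_le_card_of_injOn (fun v => (v 0, v 2))
      · intro v _; exact mem_coe.mpr (mem_univ _)
      · intro v hv v' hv' h
        rw [mem_coe, mem_filter] at hv hv'
        obtain ⟨e0, e1⟩ := Prod.mk.inj h
        have e := hv.2.trans hv'.2.symm
        unfold dt at e
        rw [vext]
        refine ⟨e0, mul_left_cancel₀ h1 ?_, e1⟩
        linear_combination e - ξ 0 * e0 - ξ 2 * e1
  · apply card_le_card_of_injOn (fun v => (v 1, v 2))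
    · intro v _; exact mem_coe.mpr (mem_univ _)
    · intro v hv v' hv' h
      rw [mem_coe, mem_filter] at hv hv'
      obtain ⟨e0, e1⟩ := Prod.mk.inj h
      have e := hv.2.trans hv'.2.symm
      unfold dt at e
      rw [vext]
      refine ⟨mul_left_cancel₀ h0 ?_, e0, e1⟩
      linear_combination e - ξ 1 * e0 - ξ 2 * e1

open Classical in
lemma card_det_mem_ge (Δ : Finset F) :
    Δ.card * ((Fintype.card F - 1) ^ 2 * Fintype.card F ^ 6) ≤
      (univ.filter fun U : Matrix (Fin 3) (Fin 3) F => U.det ∈ Δ).card := by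
  have hc : Δ.card * ((Fintype.card F - 1) ^ 2 * Fintype.card F ^ 6) =
      (Δ ×ˢ (univ : Finset ((Fˣ × Fˣ) × V F × V F))).card := by
    rw [card_product, card_univ]
    simp only [Fintype.card_prod, Fintype.card_units, Fintype.card_pi, prod_const, card_univ,
      Fintype.card_fin]
    ring
  rw [hc]
  apply card_le_card_of_injOn (fun t => !![(t.2.1.1 : F), t.2.2.1 0, t.2.2.1 1;
      t.2.2.1 2, (t.2.1.2 + t.2.2.1 0 * t.2.2.1 2) / t.2.1.1, t.2.2.2 0;
      t.2.2.2 1, t.2.2.2 2,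
      (t.1 + t.2.1.1 * t.2.2.2 0 * t.2.2.2 2 - t.2.2.1 0 * t.2.2.2 0 * t.2.2.2 1
        - t.2.2.1 1 * t.2.2.1 2 * t.2.2.2 2
        + t.2.2.1 1 * ((t.2.1.2 + t.2.2.1 0 * t.2.2.1 2) / t.2.1.1) * t.2.2.2 1) / t.2.1.2])
  · rintro ⟨δ, ⟨α, β⟩, u, v⟩ ht
    rw [mem_coe, mem_product] at ht
    rw [mem_coe, mem_filter]
    refine ⟨mem_univ _, ?_⟩
    convert ht.1 using 1
    rw [Matrix.det_fin_three]
    have hα := α.ne_zero
    have hβ := β.ne_zero
    simp
    field_simp
    ring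
  · rintro ⟨δ, ⟨α, β⟩, u, v⟩ - ⟨δ', ⟨α', β'⟩, u', v'⟩ - h
    have e00 := congrFun (congrFun h 0) 0
    have e01 := congrFun (congrFun h 0) 1
    have e02 := congrFun (congrFun h 0) 2
    have e10 := congrFun (congrFun h 1) 0
    have e11 := congrFun (congrFun h 1) 1
    have e12 := congrFun (congrFun h 1) 2
    have e20 := congrFun (congrFun h 2) 0
    have e21 := congrFun (congrFun h 2) 1
    have e22 := congrFun (congrFun h 2) 2
    simp at e00 e01 e02 e10 e11 e12 e20 e21 e22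
    have hu : u = u' := vext.mpr ⟨e01, e02, e10⟩
    have hv : v = v' := vext.mpr ⟨e12, e20, e21⟩
    have ha : α = α' := Units.ext e00
    subst hu hv ha
    have hα := α.ne_zero
    have hb : β = β' := by
      apply Units.ext
      field_simp at e11
      linear_combination e11
    subst hb
    have hβ := β.ne_zero
    have hd : δ = δ' := by
      rw [div_left_inj' hβ] at e22
      linear_combination e22
    rw [hd]

open Classical in
/-- unimodular matrices with prescribed images -/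
noncomputable def UQ (c₁ c₂ c₃ w₁ w₂ w₃ : V F) : Finset (Matrix (Fin 3) (Fin 3) F) :=
  univ.filter fun U => U.det = 1 ∧ U.mulVec c₁ = w₁ ∧ U.mulVec c₂ = w₂ ∧ U.mulVec c₃ = w₃

lemma mem_UQ {c₁ c₂ c₃ w₁ w₂ w₃ : V F} {U : Matrix (Fin 3) (Fin 3) F} :
    U ∈ UQ c₁ c₂ c₃ w₁ w₂ w₃ ↔
      U.det = 1 ∧ U.mulVec c₁ = w₁ ∧ U.mulVec c₂ = w₂ ∧ U.mulVec c₃ = w₃ := by
  unfold UQ
  simp only [mem_filter, mem_univ, true_and]

lemma card_UQ_le1 {c₁ c₂ c₃ : V F} (h : d3 c₁ c₂ c₃ ≠ 0) (w₁ w₂ w₃ : V F) :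
    (UQ c₁ c₂ c₃ w₁ w₂ w₃).card ≤ 1 := by
  rw [card_le_one]
  intro U hU U' hU'
  rw [mem_UQ] at hU hU'
  exact mat_ext_of_d3 h (hU.2.1.trans hU'.2.1.symm) (hU.2.2.1.trans hU'.2.2.1.symm)
    (hU.2.2.2.trans hU'.2.2.2.symm)

lemma card_UQ_le2 {c₁ c₂ : V F} (h : cr c₁ c₂ ≠ 0) (c₃ w₁ w₂ w₃ : V F) :
    (UQ c₁ c₂ c₃ w₁ w₂ w₃).card ≤ Fintype.card F ^ 2 := by
  classical
  obtain ⟨c, hc⟩ := exists_d3_ne h
  refine le_trans ?_ (card_plane_le (cr w₁ w₂) hc)
  apply card_le_card_of_injOn (fun U => U.mulVec c)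
  · intro U hU
    rw [mem_coe, mem_UQ] at hU
    rw [mem_coe, mem_filter]
    refine ⟨mem_univ _, ?_⟩
    rw [← d3_eq, ← hU.2.1, ← hU.2.2.1, d3_mulVec, hU.1, one_mul]
  · intro U hU U' hU' e
    rw [mem_coe, mem_UQ] at hU hU'
    exact mat_ext_of_d3 hc (hU.2.1.trans hU'.2.1.symm) (hU.2.2.1.trans hU'.2.2.1.symm) e

lemma card_UQ_le5 {c₁ : V F} (h : c₁ 2 ≠ 0) (c₂ c₃ w₁ w₂ w₃ : V F) :
    (UQ c₁ c₂ c₃ w₁ w₂ w₃).card ≤ Fintype.card F ^ 5 := by
  classical
  have hc : cr c₁ ![1, 0, 0] ≠ 0 := by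
    intro e
    have := congrFun e 1
    simp at this
    exact h this
  have h3 : (univ : Finset (V F)).card = Fintype.card F ^ 3 := by simp
  calc _ ≤ Fintype.card F ^ 2 * (univ : Finset (V F)).card := ?_
    _ = _ := by rw [h3]; ring
  apply card_le_mul_card_image_of_maps_to (f := fun U => U.mulVec ![1, 0, 0])
  · intro U _; exact mem_univ _
  · intro b _
    refine le_trans (card_le_card ?_) (card_UQ_le2 hc c₃ w₁ b w₃)
    intro U hU
    rw [mem_filter, mem_UQ] at hU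
    rw [mem_UQ]
    exact ⟨hU.1.1, hU.1.2.1, hU.2, hU.1.2.2.2⟩

end Crest.Agent.R32
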