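import Crest.Agent.R32.Count4

set_option autoImplicit false

namespace Crest.Agent.R32

open Finset

lemma sep_arith {Q B N R₀ u e k D : ℤ} (hB : 1 ≤ B) (hQ : Q = N + R₀) (hR0 : 0 ≤ R₀)
    (hR : 2 * R₀ ≤ Q) (hu1 : N ≤ 2 * B * |u|) (hu2 : 2 * |u| ≤ N) (he : 16 * B * |e| ≤ Q)
    (hD : D = Q * k + u + e) : Q ≤ 8 * B * |D| := by
  have hQ0 : 0 ≤ Q := by linarith
  have a0 := abs_nonneg e
  have a1 := abs_nonneg u
  by_cases hk : k = 0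
  · have h1 : |u| ≤ |D| + |e| := by
      have := abs_sub D e
      rw [show D - e = u by rw [hD, hk]; ring] at this
      exact this
    nlinarith
  · have h1 : Q ≤ |Q * k| := by
      rw [abs_mul, abs_of_nonneg hQ0]
      exact le_mul_of_one_le_right hQ0 (Int.one_le_abs hk)
    have h2 : |Q * k| ≤ |D| + |u| + |e| := by
      have := abs_add_three D (-u) (-e)
      rw [abs_neg, abs_neg, show D + -u + -e = Q * k by rw [hD]; ring] at this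
      exact this
    nlinarith

lemma sep_mod {A : Type} (X Y Z : A → ℤ) {q B G E Q : ℕ} (hX : ∀ a, |X a| ≤ q)
    (hY : ∀ a, |Y a| ≤ q) (hZ : ∀ a, |Z a| ≤ q)
    (hcl : ∀ a b c, a ≠ b → a ≠ c → b ≠ c →
      ∃ h ρ : ℤ, d3 ![X a, X b, X c] ![Y a, Y b, Y c] ![Z a, Z b, Z c] = q * h + ρ ∧
        (q : ℤ) ≤ 2 * B * |ρ| ∧ 2 * |ρ| ≤ q)
    (hq1 : 1 ≤ q) (hB1 : 1 ≤ B) (hqE : q ≤ E) (hEG : E ≤ G) (hG : 496 * B * q ^ 2 * E ≤ G)
    (h2q : 2 * q ≤ G) (hQ1 : G ^ 2 ≤ Q) (hQ2 : Q ≤ 2 * G ^ 2)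
    (a b c : A × Fin E × Fin E) (hab : a.1 ≠ b.1) (hac : a.1 ≠ c.1) (hbc : b.1 ≠ c.1) (D : ℤ)
    (hD : (D : ZMod Q) =
      d3 (red Q (cv (fun a => G * X a) (fun a => (Q / (q * G) : ℕ) * Y a) Z a))
        (red Q (cv (fun a => G * X a) (fun a => (Q / (q * G) : ℕ) * Y a) Z b))
        (red Q (cv (fun a => G * X a) (fun a => (Q / (q * G) : ℕ) * Y a) Z c))) :
    (Q : ℤ) ≤ (8 * B : ℕ) * |D| := by
  obtain ⟨h, ρ, e, r1, r2⟩ := hcl _ _ _ hab hac hbc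
  rw [← red_d3, eq_comm, ZMod.intCast_eq_intCast_iff_dvd_sub] at hD
  obtain ⟨k, hk⟩ := hD
  have hG1 : 1 ≤ G := by omega
  have hqG : 0 < q * G := by positivity
  obtain ⟨γ, hγ⟩ : ∃ γ, γ = Q / (q * G) := ⟨_, rfl⟩
  rw [← hγ] at hk
  have d1 : q * G * γ + Q % (q * G) = Q := hγ ▸ Nat.div_add_mod Q (q * G)
  have d2 : Q % (q * G) < q * G := Nat.mod_lt _ hqG
  generalize Q % (q * G) = R₀ at d1 d2
  have hγ2 : γ ≤ 2 * G := by
    have : G * γ ≤ G * (2 * G) := by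
      calc G * γ = 1 * G * γ := by ring
        _ ≤ q * G * γ := by gcongr
        _ ≤ Q := by omega
        _ ≤ 2 * G ^ 2 := hQ2
        _ = _ := by ring
    exact Nat.le_of_mul_le_mul_left this hG1
  have v3 : ∀ (f : A → ℤ), (∀ a, |f a| ≤ q) → ∀ i, |(![f a.1, f b.1, f c.1] : V ℤ) i| ≤ q := by
    intro f hf i
    fin_cases i
    · exact hf _
    · exact hf _
    · exact hf _
  have w3 : ∀ x y z : Fin E, ∀ i, |(![((x : ℕ) : ℤ), (y : ℕ), (z : ℕ)] : V ℤ) i| ≤ E := by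
    have : ∀ x : Fin E, |((x : ℕ) : ℤ)| ≤ E := fun x => by
      have := x.2
      rw [abs_le]; omega
    intro x y z i
    fin_cases i
    · exact this _
    · exact this _
    · exact this _
  have b0 := abs_d3_le (v3 X hX) (v3 Y hY) (v3 Z hZ)
  have b1 := abs_d3_le (v3 X hX) (w3 a.2.2 b.2.2 c.2.2) (v3 Z hZ)
  have b2 := abs_d3_le (w3 a.2.1 b.2.1 c.2.1) (v3 Y hY) (v3 Z hZ)
  have b3 := abs_d3_le (w3 a.2.1 b.2.1 c.2.1) (w3 a.2.2 b.2.2 c.2.2) (v3 Z hZ)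
  have expand : d3 (cv (fun a => G * X a) (fun a => (γ : ℤ) * Y a) Z a)
      (cv (fun a => G * X a) (fun a => (γ : ℤ) * Y a) Z b)
      (cv (fun a => G * X a) (fun a => (γ : ℤ) * Y a) Z c) =
      G * γ * d3 ![X a.1, X b.1, X c.1] ![Y a.1, Y b.1, Y c.1] ![Z a.1, Z b.1, Z c.1]
      + G * d3 ![X a.1, X b.1, X c.1] ![((a.2.2 : ℕ) : ℤ), (b.2.2 : ℕ), (c.2.2 : ℕ)]
        ![Z a.1, Z b.1, Z c.1]
      + γ * d3 ![((a.2.1 : ℕ) : ℤ), (b.2.1 : ℕ), (c.2.1 : ℕ)] ![Y a.1, Y b.1, Y c.1]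
        ![Z a.1, Z b.1, Z c.1]
      + d3 ![((a.2.1 : ℕ) : ℤ), (b.2.1 : ℕ), (c.2.1 : ℕ)]
        ![((a.2.2 : ℕ) : ℤ), (b.2.2 : ℕ), (c.2.2 : ℕ)] ![Z a.1, Z b.1, Z c.1] := by
    simp only [d3, cv_0, cv_1, cv_2, Matrix.cons_val_zero, Matrix.cons_val_one, Matrix.cons_val]
    ring
  rw [expand] at hk
  rw [e] at hk b0
  generalize d3 ![X a.1, X b.1, X c.1] ![((a.2.2 : ℕ) : ℤ), (b.2.2 : ℕ), (c.2.2 : ℕ)]
        ![Z a.1, Z b.1, Z c.1] = t1 at *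
  generalize d3 ![((a.2.1 : ℕ) : ℤ), (b.2.1 : ℕ), (c.2.1 : ℕ)] ![Y a.1, Y b.1, Y c.1]
        ![Z a.1, Z b.1, Z c.1] = t2 at *
  generalize d3 ![((a.2.1 : ℕ) : ℤ), (b.2.1 : ℕ), (c.2.1 : ℕ)]
        ![((a.2.2 : ℕ) : ℤ), (b.2.2 : ℕ), (c.2.2 : ℕ)] ![Z a.1, Z b.1, Z c.1] = t3 at *
  have hq1' : (1 : ℤ) ≤ q := by exact_mod_cast hq1
  have hG1' : (1 : ℤ) ≤ G := by exact_mod_cast hG1
  have hqE' : (q : ℤ) ≤ E := by exact_mod_cast hqE
  have hEG' : (E : ℤ) ≤ G := by exact_mod_cast hEG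
  have hγ2' : (γ : ℤ) ≤ 2 * G := by exact_mod_cast hγ2
  have d1' : (q : ℤ) * G * γ + R₀ = Q := by exact_mod_cast d1
  have d2' : (R₀ : ℤ) ≤ q * G := by exact_mod_cast d2.le
  have hh : |h| ≤ 7 * (q : ℤ) ^ 2 := by
    have h1 : |(q : ℤ) * h| ≤ |q * h + ρ| + |ρ| := by
      have := abs_sub ((q : ℤ) * h + ρ) ρ
      simpa using this
    rw [abs_mul, abs_of_nonneg (by positivity : (0 : ℤ) ≤ q)] at h1
    apply le_of_mul_le_mul_left _ (by linarith : (0 : ℤ) < q)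
    have : (q : ℤ) ≤ q ^ 3 := le_self_pow₀ hq1' (by norm_num)
    have h2 := abs_nonneg ρ
    calc (q : ℤ) * |h| ≤ 6 * q * q * q + q ^ 3 := by linarith
      _ = _ := by ring
  have herr : |G * t1 + γ * t2 + t3 - R₀ * h| ≤ 31 * (G * q ^ 2 * E) := by
    have f1 : |G * t1| ≤ 6 * (G * q ^ 2 * E) := by
      rw [abs_mul, abs_of_nonneg (by positivity : (0 : ℤ) ≤ G)]
      calc (G : ℤ) * |t1| ≤ G * (6 * q * E * q) := by gcongr
        _ = _ := by ring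
    have f2 : |γ * t2| ≤ 12 * (G * q ^ 2 * E) := by
      rw [abs_mul, abs_of_nonneg (by positivity : (0 : ℤ) ≤ γ)]
      calc (γ : ℤ) * |t2| ≤ (2 * G) * (6 * E * q * q) := by gcongr
        _ = _ := by ring
    have f3 : |t3| ≤ 6 * (G * q ^ 2 * E) := by
      calc |t3| ≤ 6 * E * E * q := b3
        _ ≤ 6 * G * E * q ^ 2 := by
          gcongr
          exact le_self_pow₀ hq1' (by norm_num)
        _ = _ := by ring
    have f4 : |R₀ * h| ≤ 7 * (G * q ^ 2 * E) := by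
      rw [abs_mul, abs_of_nonneg (by positivity : (0 : ℤ) ≤ R₀)]
      calc (R₀ : ℤ) * |h| ≤ (E * G) * (7 * (q : ℤ) ^ 2) := by
            gcongr
            exact d2'.trans (by gcongr)
        _ = _ := by ring
    have := abs_sub (G * t1 + γ * t2 + t3) (R₀ * h)
    have := abs_add_three (G * t1) (γ * t2) t3
    linarith
  have hG' : 496 * (B : ℤ) * q ^ 2 * E ≤ G := by exact_mod_cast hG
  have hQ1' : (G : ℤ) ^ 2 ≤ Q := by exact_mod_cast hQ1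
  have h2q' : 2 * (q : ℤ) ≤ G := by exact_mod_cast h2q
  have habs : |(G : ℤ) * γ * ρ| = G * γ * |ρ| := by
    rw [abs_mul, abs_of_nonneg (by positivity)]
  push_cast
  apply sep_arith (N := q * G * γ) (R₀ := R₀) (u := G * γ * ρ)
    (e := G * t1 + γ * t2 + t3 - R₀ * h) (k := k + h) (by exact_mod_cast hB1) d1'.symm
    (by positivity)
  · calc 2 * (R₀ : ℤ) ≤ 2 * (q * G) := by linarith
      _ = (2 * q) * G := by ring
      _ ≤ G * G := by gcongr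
      _ ≤ _ := by linarith
  · rw [habs]
    calc (q : ℤ) * G * γ ≤ (2 * B * |ρ|) * G * γ := by gcongr
      _ = _ := by ring
  · rw [habs]
    calc 2 * ((G : ℤ) * γ * |ρ|) = (2 * |ρ|) * G * γ := by ring
      _ ≤ _ := by gcongr
  · calc 16 * (B : ℤ) * |G * t1 + γ * t2 + t3 - R₀ * h| ≤ 16 * B * (31 * (G * q ^ 2 * E)) := by
          gcongr
      _ = G * (496 * B * q ^ 2 * E) := by ring
      _ ≤ G * G := by gcongr
      _ ≤ _ := by linarith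
  · linear_combination hk + h * d1'

end Crest.Agent.R32
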