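import Crest.Agent.R32.Abstract
import Crest.Agent.R32.Classes
import Crest.Agent.R32.Sep

set_option autoImplicit false

namespace Crest.Agent.R32

open Finset

/-- choice of the large prime -/
lemma exists_P {q D Q n L : ℕ} (hq : 512 ≤ q) (hD1 : 1 ≤ D) (hD : D ≤ q ^ 51) (hQ2 : 2 ≤ Q)
    (hQ : Q ≤ q ^ 25) (hn : q ^ 128 ≤ n) (hL1 : 1 ≤ L) (hL : 80000000000000 * L ≤ n) :
    ∃ P : ℕ, P.Prime ∧ Q < P ∧ P ≤ 2 * n ∧ 8 * n ≤ (P - 1) * P ∧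
      80000000000000 * L * n ^ 2 ≤ D * P ^ 3 ∧
      D * P ^ 3 ≤ 64 * (80000000000000 * L * n ^ 2) := by
  obtain ⟨A, hA⟩ : ∃ A, A = 80000000000000 * L * n ^ 2 := ⟨_, rfl⟩
  rw [← hA]
  have hq1 : 1 ≤ q := by omega
  have hn1 : 1 ≤ n := (Nat.one_le_pow _ _ hq1).trans hn
  have hA1 : 2 * n ^ 2 ≤ A := by
    rw [hA]; gcongr; omega
  have hn2 : 1 ≤ n ^ 2 := Nat.one_le_pow _ _ hn1
  have hAn : A ≤ D * n ^ 3 := by
    calc A = (80000000000000 * L) * n ^ 2 := hA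
      _ ≤ n * n ^ 2 := by gcongr
      _ = 1 * n ^ 3 := by ring
      _ ≤ _ := by gcongr
  have hex : ∃ m, A ≤ D * m ^ 3 := ⟨n, hAn⟩
  obtain ⟨m, hm⟩ : ∃ m, m = Nat.find hex := ⟨_, rfl⟩
  have m1 : A ≤ D * m ^ 3 := hm ▸ Nat.find_spec hex
  have m2 : m ≤ n := hm ▸ Nat.find_min' hex hAn
  have m3 : Q ≤ m := by
    by_contra hc
    have : D * m ^ 3 ≤ n ^ 2 := by
      calc D * m ^ 3 ≤ q ^ 51 * (q ^ 25) ^ 3 := by gcongr; omega
        _ = q ^ 126 := by ring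
        _ ≤ q ^ 128 := Nat.pow_le_pow_right hq1 (by norm_num)
        _ ≤ n := hn
        _ ≤ n ^ 2 := Nat.le_self_pow (by norm_num) n
    omega
  have m4 : D * (m - 1) ^ 3 < A := by
    have := Nat.find_min hex (m := m - 1) (by omega)
    omega
  have m5 : 8 * n ≤ m ^ 2 := by
    by_contra hc
    have h1 : A ^ 2 ≤ n ^ 4 := by
      calc A ^ 2 ≤ (D * m ^ 3) ^ 2 := by gcongr
        _ = D ^ 2 * (m ^ 2) ^ 3 := by ring
        _ ≤ (q ^ 51) ^ 2 * (8 * n) ^ 3 := by gcongr; omega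
        _ = q ^ 102 * 512 * n ^ 3 := by ring
        _ ≤ q ^ 102 * q * n ^ 3 := by gcongr
        _ = q ^ 103 * n ^ 3 := by ring
        _ ≤ n * n ^ 3 := by
          gcongr
          exact (Nat.pow_le_pow_right hq1 (by norm_num)).trans hn
        _ = _ := by ring
    have h2 : (2 * n ^ 2) ^ 2 ≤ A ^ 2 := by gcongr
    have h3 : (2 * n ^ 2) ^ 2 = 4 * n ^ 4 := by ring
    have h4 : 1 ≤ n ^ 4 := Nat.one_le_pow _ _ hn1
    omega
  obtain ⟨P, hP, p1, p2⟩ := Nat.exists_prime_lt_and_le_two_mul m (by omega)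
  refine ⟨P, hP, by omega, by omega, ?_, ?_, ?_⟩
  · calc 8 * n ≤ m * m := by rw [← sq]; exact m5
      _ ≤ _ := Nat.mul_le_mul (by omega) p1.le
  · exact m1.trans (by gcongr)
  · calc D * P ^ 3 ≤ D * (4 * (m - 1)) ^ 3 := by gcongr; omega
      _ = 64 * (D * (m - 1) ^ 3) := by ring
      _ ≤ _ := by gcongr

theorem param_main : ∃ κ C u₀ : ℕ, 1 ≤ κ ∧ 1 ≤ C ∧ 1 ≤ u₀ ∧ ∀ u n : ℕ, u₀ ≤ u → u ^ κ ≤ n →
    n < (u + 1) ^ κ → ∀ δ : ℝ, 0 < δ → δ * (C * (n : ℝ) ^ 2) ≤ u →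
    ∃ P : Finset (ℝ × ℝ), P.card = n ∧
        (∀ p ∈ P, 0 ≤ p.1 ∧ p.1 ≤ 1 ∧ 0 ≤ p.2 ∧ p.2 ≤ 1) ∧
        ∀ p ∈ P, ∀ q ∈ P, ∀ r ∈ P, p ≠ q → p ≠ r → q ≠ r →
          δ ≤ |(q.1 - p.1) * (r.2 - p.2) - (q.2 - p.2) * (r.1 - p.1)| / 2 := by
  obtain ⟨s, hs, H⟩ := exists_classes
  obtain ⟨J, hJ⟩ : ∃ J, J = (s + 1) * s + 1 := ⟨_, rfl⟩
  obtain ⟨C₀, hC₀⟩ : ∃ C₀, C₀ = 60 * s ^ 3 := ⟨_, rfl⟩
  obtain ⟨κ, hκ⟩ : ∃ κ, κ = 7 * J * 128 := ⟨_, rfl⟩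
  have hJ1 : 1 ≤ J := by omega
  have hC₀1 : 60 ≤ C₀ := by
    have := Nat.one_le_pow 3 s hs
    omega
  have hκ2 : 2 ≤ κ := by omega
  refine ⟨κ, 128 * C₀ * (64 * (80000000000000 * (5 * κ))), 8 * C₀ + 80000000000000 * (5 * κ),
    by omega, Nat.mul_pos (by omega) (by omega), by omega, fun u n hu hn1 hn2 δ hδ hδ2 => ?_⟩
  have hu2 : 2 ≤ u := by omega
  obtain ⟨p, hp, p1, p2⟩ := Nat.exists_prime_lt_and_le_two_mul (u ^ 2) (by positivity)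
  have hp4 : 4 < p := lt_of_le_of_lt (Nat.pow_le_pow_left hu2 2) p1
  have : Fact p.Prime := ⟨hp⟩
  obtain ⟨B, hB⟩ : ∃ B, B = 60 * s ^ 3 * p ^ 3 := ⟨_, rfl⟩
  obtain ⟨q, hq⟩ : ∃ q, q = B ^ ((s + 1) * s + 1) := ⟨_, rfl⟩
  obtain ⟨X, Y, Z, hX, hY, hZ1, hZ2, hcl⟩ := H p (by omega) B q hB hq
  rw [← hC₀] at hB
  rw [← hJ] at hq
  have hp3 : 64 ≤ p ^ 3 := by
    calc 64 = 4 ^ 3 := by norm_num
      _ ≤ _ := by gcongr
  have hB1 : p ^ 3 ≤ B := by rw [hB]; exact Nat.le_mul_of_pos_left _ (by omega)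
  have hB2 : 512 ≤ B := by
    calc 512 ≤ 60 * 64 := by norm_num
      _ ≤ C₀ * p ^ 3 := by gcongr
      _ = B := hB.symm
  have hBq : B ≤ q := by rw [hq]; exact Nat.le_self_pow (by omega) B
  have hq512 : 512 ≤ q := hB2.trans hBq
  have hq1 : 1 ≤ q := by omega
  have hBu : B ≤ u ^ 7 := by
    calc B = C₀ * p ^ 3 := hB
      _ ≤ C₀ * (2 * u ^ 2) ^ 3 := by gcongr
      _ = (8 * C₀) * u ^ 6 := by ring
      _ ≤ u * u ^ 6 := by gcongr; omega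
      _ = _ := by ring
  have hqn : q ^ 128 ≤ n := by
    calc q ^ 128 = (B ^ J) ^ 128 := by rw [hq]
      _ ≤ ((u ^ 7) ^ J) ^ 128 := by gcongr
      _ = u ^ κ := by rw [hκ, pow_mul, pow_mul]
      _ ≤ n := hn1
  have hr : p ^ 4 ≤ q ^ 2 := by
    calc p ^ 4 ≤ p ^ 6 := Nat.pow_le_pow_right (by omega) (by norm_num)
      _ = (p ^ 3) ^ 2 := by ring
      _ ≤ q ^ 2 := by gcongr; exact hB1.trans hBq
  obtain ⟨Q, hQ, q1, q2⟩ := Nat.exists_prime_lt_and_le_two_mul ((q ^ 12) ^ 2) (by positivity)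
  have : Fact Q.Prime := ⟨hQ⟩
  have hpw : ∀ a b : ℕ, a ≤ b → q ^ a ≤ q ^ b := fun a b h => Nat.pow_le_pow_right hq1 h
  have hQ25 : Q ≤ q ^ 25 := by
    calc Q ≤ 2 * (q ^ 12) ^ 2 := q2
      _ ≤ q * (q ^ 12) ^ 2 := by gcongr; omega
      _ = _ := by ring
  have hQ24 : q ^ 24 ≤ Q := by
    calc q ^ 24 = (q ^ 12) ^ 2 := by ring
      _ ≤ Q := q1.le
  have hLn : 80000000000000 * (5 * κ * u) ≤ n := by
    calc 80000000000000 * (5 * κ * u) = (80000000000000 * (5 * κ)) * u := by ring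
      _ ≤ u * u := by gcongr; omega
      _ = u ^ 2 := by ring
      _ ≤ u ^ κ := Nat.pow_le_pow_right (by omega) hκ2
      _ ≤ n := hn1
  obtain ⟨P, hP, P1, P2, P3, P4, P5⟩ := exists_P (D := p ^ 4 * Q ^ 2) (L := 5 * κ * u) hq512
    (Nat.mul_pos (by positivity) (pow_pos hQ.pos 2)) (by
      calc p ^ 4 * Q ^ 2 ≤ q ^ 2 * (2 * (q ^ 12) ^ 2) ^ 2 := by gcongr
        _ = 4 * q ^ 50 := by ring
        _ ≤ q * q ^ 50 := by gcongr; omega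
        _ = _ := by ring) hQ.two_le hQ25 hqn (Nat.mul_pos (by omega) (by omega)) hLn
  have : Fact P.Prime := ⟨hP⟩
  have hcard : Fintype.card (Fin 4 → ZMod p) = p ^ 4 := by simp
  have hn128 : 128 ≤ n := by
    have := Nat.le_self_pow (n := 128) (by norm_num) q
    omega
  have h2q : 2 * q ≤ q ^ 2 := by
    rw [sq]; exact Nat.mul_le_mul_right _ (by omega)
  obtain ⟨g, g1, g2⟩ := abstract_main (A := Fin 4 → ZMod p) (P := P) (Q := Q) (E := q ^ 8)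
    (K := 8 * B) (Zm := q) (n := n) (L := 5 * κ * u) (Nat.one_le_pow _ _ hq1)
    ((hpw 8 24 (by norm_num)).trans hQ24) P1 (by omega)
    (h2q.trans ((hpw 2 24 (by norm_num)).trans hQ24))
    (fun a => (q ^ 12 : ℕ) * X a) (fun a => (Q / (q * q ^ 12) : ℕ) * Y a) Z hZ1 hZ2
    (sep_mod X Y Z hX hY (fun a => by
        have := hZ1 a
        have := hZ2 a
        rw [abs_le]; omega) hcl hq1 (by omega) (Nat.le_self_pow (by norm_num) q)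
      (hpw 8 12 (by norm_num)) (by
        calc 496 * B * q ^ 2 * q ^ 8 ≤ q * q * q ^ 2 * q ^ 8 := by gcongr; omega
          _ = _ := by ring) (h2q.trans (hpw 2 12 (by norm_num))) q1.le q2)
    (by
      rw [hcard]
      calc q ^ 2 * p ^ 4 ≤ q ^ 2 * q ^ 2 := by gcongr
        _ = q ^ 4 := by ring
        _ ≤ _ := hpw 4 8 (by norm_num))
    (by
      rw [hcard]
      calc Q * q ^ 4 * p ^ 4 ≤ q ^ 25 * q ^ 4 * q ^ 2 := by gcongr
        _ = q ^ 31 := by ring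
        _ ≤ q ^ 32 := hpw 31 32 (by norm_num)
        _ = _ := by ring)
    (by
      rw [Nat.succ_le_iff]
      have hP0 := hP.pos
      have hQ0 := hQ.pos
      apply Nat.log_lt_of_lt_pow (by positivity)
      calc 2 * (2 * P * Q) * (2 * P * Q) ≤ 2 * (2 * (2 * n) * (2 * n)) * (2 * (2 * n) * (2 * n)) := by
            gcongr <;> omega
        _ = 128 * n ^ 4 := by ring
        _ ≤ n * n ^ 4 := by gcongr
        _ = n ^ 5 := by ring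
        _ < ((u + 1) ^ κ) ^ 5 := by gcongr
        _ ≤ ((2 ^ u) ^ κ) ^ 5 := by
            gcongr
            exact Nat.lt_two_pow_self
        _ = 2 ^ (5 * κ * u) := by rw [← pow_mul, ← pow_mul]; congr 1; ring)
    P3 (by rw [hcard]; exact P4)
  apply points_of_vectors (H := P * Q) (by omega) hδ g (fun i => by
    have := g1 i
    rwa [mul_assoc] at this)
  intro i j k hij hik hjk
  have h1 : (Q : ℝ) ≤ 8 * B * |((d3 (g i) (g j) (g k) : ℤ) : ℝ)| := by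
    exact_mod_cast g2 i j k hij hik hjk
  have h2 : (u : ℝ) * (128 * B * (Q ^ 2 * P ^ 3)) ≤
      ((128 * C₀ * (64 * (80000000000000 * (5 * κ))) : ℕ) : ℝ) * (n : ℝ) ^ 2 := by
    have : u * (u * (128 * B * (Q ^ 2 * P ^ 3))) ≤
        u * (128 * C₀ * (64 * (80000000000000 * (5 * κ))) * n ^ 2) := by
      calc u * (u * (128 * B * (Q ^ 2 * P ^ 3))) = 128 * C₀ * (u ^ 2 * p ^ 3 * Q ^ 2 * P ^ 3) := by
            rw [hB]; ring
        _ ≤ 128 * C₀ * (p * p ^ 3 * Q ^ 2 * P ^ 3) := by gcongr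
        _ = 128 * C₀ * (p ^ 4 * Q ^ 2 * P ^ 3) := by ring
        _ ≤ 128 * C₀ * (64 * (80000000000000 * (5 * κ * u) * n ^ 2)) := by gcongr
        _ = _ := by ring
    exact_mod_cast Nat.le_of_mul_le_mul_left this (by omega)
  have hu0 : (0 : ℝ) < u := by exact_mod_cast (by omega : 0 < u)
  have hB0 : (0 : ℝ) < B := by exact_mod_cast (by omega : 0 < B)
  have hQ0 : (0 : ℝ) < Q := by exact_mod_cast hQ.pos
  have h3 : δ * (128 * B * (Q ^ 2 * P ^ 3)) ≤ 1 := by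
    apply le_of_mul_le_mul_left _ hu0
    calc u * (δ * (128 * B * (Q ^ 2 * P ^ 3))) = δ * (u * (128 * B * (Q ^ 2 * P ^ 3))) := by ring
      _ ≤ δ * _ := mul_le_mul_of_nonneg_left h2 hδ.le
      _ ≤ u := hδ2
      _ = _ := by ring
  apply le_of_mul_le_mul_left _ (by positivity : (0 : ℝ) < 8 * B)
  refine le_trans ?_ h1
  push_cast
  calc (8 : ℝ) * B * (δ * (16 * ((P : ℝ) * Q) ^ 3))
      = (Q : ℝ) * (δ * (128 * B * (Q ^ 2 * P ^ 3))) := by ring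
    _ ≤ (Q : ℝ) * 1 := by gcongr
    _ = _ := by ring

end Crest.Agent.R32
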