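import Mathlib

set_option autoImplicit false

namespace Crest.Agent.R32

/-- vectors in three-space -/
abbrev V (R : Type) := Fin 3 → R

section ring
variable {R : Type} [CommRing R]

/-- cross product -/
def cr (a b : V R) : V R :=
  ![a 1 * b 2 - a 2 * b 1, a 2 * b 0 - a 0 * b 2, a 0 * b 1 - a 1 * b 0]

/-- dot product -/
def dt (a b : V R) : R := a 0 * b 0 + a 1 * b 1 + a 2 * b 2

/-- determinant of three vectors -/
def d3 (a b c : V R) : R :=
  (a 1 * b 2 - a 2 * b 1) * c 0 + (a 2 * b 0 - a 0 * b 2) * c 1 + (a 0 * b 1 - a 1 * b 0) * c 2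

@[simp] lemma cr_0 (a b : V R) : cr a b 0 = a 1 * b 2 - a 2 * b 1 := rfl
@[simp] lemma cr_1 (a b : V R) : cr a b 1 = a 2 * b 0 - a 0 * b 2 := rfl
@[simp] lemma cr_2 (a b : V R) : cr a b 2 = a 0 * b 1 - a 1 * b 0 := rfl

lemma d3_eq (a b c : V R) : d3 a b c = dt (cr a b) c := rfl

omit [CommRing R] in
lemma vext {a b : V R} : a = b ↔ a 0 = b 0 ∧ a 1 = b 1 ∧ a 2 = b 2 := by
  constructor
  · rintro rfl; exact ⟨rfl, rfl, rfl⟩
  · rintro ⟨h0, h1, h2⟩
    funext i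
    fin_cases i
    · exact h0
    · exact h1
    · exact h2

lemma vext0 {a : V R} : a = 0 ↔ a 0 = 0 ∧ a 1 = 0 ∧ a 2 = 0 := vext

lemma mulVec_0 (U : Matrix (Fin 3) (Fin 3) R) (c : V R) (i : Fin 3) :
    (U.mulVec c) i = U i 0 * c 0 + U i 1 * c 1 + U i 2 * c 2 := by
  simp [Matrix.mulVec, dotProduct, Fin.sum_univ_three]

lemma d3_mulVec (U : Matrix (Fin 3) (Fin 3) R) (a b c : V R) :
    d3 (U.mulVec a) (U.mulVec b) (U.mulVec c) = U.det * d3 a b c := by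
  simp only [d3, mulVec_0, Matrix.det_fin_three]
  ring

end ring

section field
variable {F : Type} [Field F]

lemma mat_ext_of_d3 {U U' : Matrix (Fin 3) (Fin 3) F} {a b c : V F} (h : d3 a b c ≠ 0)
    (ha : U.mulVec a = U'.mulVec a) (hb : U.mulVec b = U'.mulVec b)
    (hc : U.mulVec c = U'.mulVec c) : U = U' := by
  ext i j
  have h1 := congrFun ha i
  have h2 := congrFun hb i
  have h3 := congrFun hc i
  simp only [mulVec_0] at h1 h2 h3
  have key : ∀ j : Fin 3, (U i j - U' i j) * d3 a b c = 0 := by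
    intro j
    fin_cases j
    · show (U i 0 - U' i 0) * d3 a b c = 0
      unfold d3
      linear_combination (b 1 * c 2 - b 2 * c 1) * h1 + (c 1 * a 2 - c 2 * a 1) * h2
        + (a 1 * b 2 - a 2 * b 1) * h3
    · show (U i 1 - U' i 1) * d3 a b c = 0
      unfold d3
      linear_combination (b 2 * c 0 - b 0 * c 2) * h1 + (c 2 * a 0 - c 0 * a 2) * h2
        + (a 2 * b 0 - a 0 * b 2) * h3
    · show (U i 2 - U' i 2) * d3 a b c = 0
      unfold d3
      linear_combination (b 0 * c 1 - b 1 * c 0) * h1 + (c 0 * a 1 - c 1 * a 0) * h2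
        + (a 0 * b 1 - a 1 * b 0) * h3
  exact sub_eq_zero.mp ((mul_eq_zero.mp (key j)).resolve_right h)

/-- a nonzero cross product can be completed to a basis -/
lemma exists_d3_ne {a b : V F} (h : cr a b ≠ 0) : ∃ c : V F, d3 a b c ≠ 0 := by
  by_contra hc
  push Not at hc
  apply h
  have h0 := hc ![1, 0, 0]
  have h1 := hc ![0, 1, 0]
  have h2 := hc ![0, 0, 1]
  simp [d3] at h0 h1 h2
  rw [vext0]
  exact ⟨h0, h1, h2⟩

end field

/-- sup norm of an integer vector -/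
def nrm (x : V ℤ) : ℕ := max (x 0).natAbs (max (x 1).natAbs (x 2).natAbs)

lemma nrm_le_iff {x : V ℤ} {R : ℕ} : nrm x ≤ R ↔ ∀ i, |x i| ≤ (R : ℤ) := by
  unfold nrm
  constructor
  · intro h i
    have h0 : (x 0).natAbs ≤ R := by omega
    have h1 : (x 1).natAbs ≤ R := by omega
    have h2 : (x 2).natAbs ≤ R := by omega
    fin_cases i
    · show |x 0| ≤ R
      rw [Int.abs_eq_natAbs]; exact_mod_cast h0
    · show |x 1| ≤ R
      rw [Int.abs_eq_natAbs]; exact_mod_cast h1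
    · show |x 2| ≤ R
      rw [Int.abs_eq_natAbs]; exact_mod_cast h2
  · intro h
    have h0 := h 0
    have h1 := h 1
    have h2 := h 2
    rw [Int.abs_eq_natAbs] at h0 h1 h2
    omega

lemma abs_le_nrm (x : V ℤ) (i : Fin 3) : |x i| ≤ (nrm x : ℤ) := nrm_le_iff.mp le_rfl i

lemma exists_abs_eq_nrm (x : V ℤ) : ∃ j, |x j| = (nrm x : ℤ) := by
  unfold nrm
  rcases le_total (x 1).natAbs (x 2).natAbs with h | h
  · rcases le_total (x 0).natAbs (x 2).natAbs with h' | h'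
    · exact ⟨2, by rw [Int.abs_eq_natAbs, max_eq_right h, max_eq_right h']⟩
    · exact ⟨0, by rw [Int.abs_eq_natAbs, max_eq_right h, max_eq_left h']⟩
  · rcases le_total (x 0).natAbs (x 1).natAbs with h' | h'
    · exact ⟨1, by rw [Int.abs_eq_natAbs, max_eq_left h, max_eq_right h']⟩
    · exact ⟨0, by rw [Int.abs_eq_natAbs, max_eq_left h, max_eq_left h']⟩

lemma nrm_pos {x : V ℤ} (h : x ≠ 0) : 1 ≤ nrm x := by
  by_contra hn
  apply h
  have : nrm x ≤ 0 := by omega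
  have h' := nrm_le_iff.mp this
  funext i
  have := h' i
  simpa using this

/-- the box of integer vectors of sup norm at most `R` -/
noncomputable def box (R : ℕ) : Finset (V ℤ) := Fintype.piFinset fun _ => Finset.Icc (-(R : ℤ)) R

lemma mem_box {x : V ℤ} {R : ℕ} : x ∈ box R ↔ nrm x ≤ R := by
  rw [nrm_le_iff, box, Fintype.mem_piFinset]
  simp only [Finset.mem_Icc, abs_le]

lemma card_box (R : ℕ) : (box R).card = (2 * R + 1) ^ 3 := by
  rw [box, Fintype.card_piFinset]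
  simp only [Int.card_Icc, Finset.prod_const, Finset.card_univ, Fintype.card_fin]
  congr 1
  omega

lemma abs_minor_le {a b c d : ℤ} {A B : ℤ} (ha : |a| ≤ A) (hb : |b| ≤ B) (hc : |c| ≤ A)
    (hd : |d| ≤ B) : |a * b - c * d| ≤ 2 * A * B := by
  have h1 : |a * b| ≤ A * B := by
    rw [abs_mul]; exact mul_le_mul ha hb (abs_nonneg _) ((abs_nonneg _).trans ha)
  have h2 : |c * d| ≤ A * B := by
    rw [abs_mul]; exact mul_le_mul hc hd (abs_nonneg _) ((abs_nonneg _).trans hc)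
  have := abs_sub (a * b) (c * d)
  linarith

lemma nrm_cr_le {a b : V ℤ} {A B : ℕ} (ha : nrm a ≤ A) (hb : nrm b ≤ B) :
    nrm (cr a b) ≤ 2 * A * B := by
  rw [nrm_le_iff] at *
  intro i
  push_cast
  fin_cases i
  · exact abs_minor_le (ha 1) (hb 2) (ha 2) (hb 1)
  · exact abs_minor_le (ha 2) (hb 0) (ha 0) (hb 2)
  · exact abs_minor_le (ha 0) (hb 1) (ha 1) (hb 0)

lemma abs_d3_le {a b c : V ℤ} {A B C : ℤ} (ha : ∀ i, |a i| ≤ A) (hb : ∀ i, |b i| ≤ B)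
    (hc : ∀ i, |c i| ≤ C) : |d3 a b c| ≤ 6 * A * B * C := by
  have h0 := abs_minor_le (ha 1) (hb 2) (ha 2) (hb 1)
  have h1 := abs_minor_le (ha 2) (hb 0) (ha 0) (hb 2)
  have h2 := abs_minor_le (ha 0) (hb 1) (ha 1) (hb 0)
  have hn : (0 : ℤ) ≤ 2 * A * B := (abs_nonneg _).trans h0
  have g0 : |(a 1 * b 2 - a 2 * b 1) * c 0| ≤ 2 * A * B * C := by
    rw [abs_mul]; exact mul_le_mul h0 (hc 0) (abs_nonneg _) hn
  have g1 : |(a 2 * b 0 - a 0 * b 2) * c 1| ≤ 2 * A * B * C := by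
    rw [abs_mul]; exact mul_le_mul h1 (hc 1) (abs_nonneg _) hn
  have g2 : |(a 0 * b 1 - a 1 * b 0) * c 2| ≤ 2 * A * B * C := by
    rw [abs_mul]; exact mul_le_mul h2 (hc 2) (abs_nonneg _) hn
  unfold d3
  have := abs_add_three ((a 1 * b 2 - a 2 * b 1) * c 0) ((a 2 * b 0 - a 0 * b 2) * c 1)
    ((a 0 * b 1 - a 1 * b 0) * c 2)
  linarith

/-- primitive integer vectors -/
def Prim (η : V ℤ) : Prop := ∃ u : V ℤ, dt u η = 1

lemma Prim.ne_zero {η : V ℤ} (h : Prim η) : η ≠ 0 := by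
  rintro rfl
  obtain ⟨u, hu⟩ := h
  simp [dt] at hu

lemma exists_prim {ξ : V ℤ} (h : ξ ≠ 0) :
    ∃ (g : ℤ) (η : V ℤ), g ≠ 0 ∧ Prim η ∧ (∀ i, ξ i = g * η i) ∧ nrm η ≤ nrm ξ := by
  set g1 : ℤ := (Int.gcd (ξ 0) (ξ 1) : ℤ) with hg1
  set g : ℤ := (Int.gcd g1 (ξ 2) : ℤ) with hg
  have e1 := Int.gcd_eq_gcd_ab (ξ 0) (ξ 1)
  have e2 := Int.gcd_eq_gcd_ab g1 (ξ 2)
  rw [← hg1] at e1
  rw [← hg] at e2
  have d1 : g ∣ g1 := Int.gcd_dvd_left _ _
  have d2 : g ∣ ξ 2 := Int.gcd_dvd_right _ _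
  have d0 : g ∣ ξ 0 := d1.trans (Int.gcd_dvd_left _ _)
  have d1' : g ∣ ξ 1 := d1.trans (Int.gcd_dvd_right _ _)
  obtain ⟨a, ha⟩ := d0
  obtain ⟨b, hb⟩ := d1'
  obtain ⟨c, hc⟩ := d2
  have g0 : g ≠ 0 := by
    intro hz
    apply h
    rw [vext0]
    rw [hz] at ha hb hc
    exact ⟨by simpa using ha, by simpa using hb, by simpa using hc⟩
  have hall : ∀ i, ξ i = g * (![a, b, c] : V ℤ) i := by
    intro i
    fin_cases i
    · exact ha
    · exact hb
    · exact hc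
  refine ⟨g, ![a, b, c], g0, ?_, hall, ?_⟩
  · refine ⟨![Int.gcdA (ξ 0) (ξ 1) * Int.gcdA g1 (ξ 2), Int.gcdB (ξ 0) (ξ 1) * Int.gcdA g1 (ξ 2),
      Int.gcdB g1 (ξ 2)], ?_⟩
    apply mul_left_cancel₀ g0
    show g * (Int.gcdA (ξ 0) (ξ 1) * Int.gcdA g1 (ξ 2) * a
      + Int.gcdB (ξ 0) (ξ 1) * Int.gcdA g1 (ξ 2) * b + Int.gcdB g1 (ξ 2) * c) = g * 1
    linear_combination (-1 : ℤ) * e2 - Int.gcdA g1 (ξ 2) * e1
      - Int.gcdA (ξ 0) (ξ 1) * Int.gcdA g1 (ξ 2) * ha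
      - Int.gcdB (ξ 0) (ξ 1) * Int.gcdA g1 (ξ 2) * hb - Int.gcdB g1 (ξ 2) * hc
  · rw [nrm_le_iff]
    intro i
    have h1 := abs_le_nrm ξ i
    rw [hall i, abs_mul] at h1
    have : 1 ≤ |g| := Int.one_le_abs g0
    nlinarith [abs_nonneg ((![a, b, c] : V ℤ) i)]

/-- integer division separates far apart integers -/
lemma abs_sub_lt_of_div_eq {x y R l : ℤ} (hl : 0 < l) (h : (x + R) / l = (y + R) / l) :
    |x - y| < l := by
  have h1 := Int.emod_add_mul_ediv (x + R) l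
  have h2 := Int.emod_add_mul_ediv (y + R) l
  have h3 := Int.emod_nonneg (x + R) hl.ne'
  have h4 := Int.emod_nonneg (y + R) hl.ne'
  have h5 := Int.emod_lt_of_pos (x + R) hl
  have h6 := Int.emod_lt_of_pos (y + R) hl
  rw [h] at h1
  rw [abs_lt]
  constructor <;> linarith

lemma div_mem_Icc {x R l : ℤ} (hl : 0 < l) (hx : |x| ≤ R) :
    (x + R) / l ∈ Finset.Icc (0 : ℤ) (2 * R / l) := by
  rw [abs_le] at hx
  rw [Finset.mem_Icc]
  constructor
  · exact Int.ediv_nonneg (by linarith) hl.le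
  · exact Int.ediv_le_ediv hl (by linarith)

lemma card_Icc_div_le {R l : ℤ} (hl : 0 < l) (hR : 0 ≤ R) :
    ((Finset.Icc (0 : ℤ) (2 * R / l)).card : ℝ) ≤ 2 * R / l + 1 := by
  rw [Int.card_Icc]
  have h0 : 0 ≤ 2 * R / l := Int.ediv_nonneg (by linarith) hl.le
  have h1 : (((2 * R / l + 1 - 0).toNat : ℤ) : ℝ) = ((2 * R / l : ℤ) : ℝ) + 1 := by
    rw [Int.toNat_of_nonneg (by linarith)]; push_cast; ring
  have h2 : ((2 * R / l : ℤ) : ℝ) ≤ 2 * R / l := by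
    have hl' : (0 : ℝ) < l := by exact_mod_cast hl
    rw [le_div_iff₀ hl']
    have := Int.ediv_mul_le (2 * R) hl.ne'
    exact_mod_cast this
  have h3 : (((2 * R / l + 1 - 0).toNat : ℕ) : ℝ) = (((2 * R / l + 1 - 0).toNat : ℤ) : ℝ) :=
    (Int.cast_natCast _).symm
  rw [h3, h1]
  linarith

end Crest.Agent.R32
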